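import Vale.Agent.P048.Dirac

/-!
P048: in a connected non-bipartite graph with a cycle of length `L > l` whose vertices have degree
at least three, every two-colouring using both colours has a path of length `l` with ends of
different colours.  If all such paths had ends of one colour, the colours along the cycle would
have period two, and then every vertex would get the colour of its parity.
-/

namespace Vale.Agent.P048.Cross

open Finset Vale.Agent.P048.Dirac

variable {V : Type*} {G : SimpleGraph V} {B : Finset V}

/-- `p 0, …, p n` is a simple path inside `B`. -/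
structure IsFunPath (G : SimpleGraph V) (B : Finset V) (n : ℕ) (p : ℕ → V) : Prop where
  inj : ∀ i ≤ n, ∀ k ≤ n, p i = p k → i = k
  mem : ∀ i ≤ n, p i ∈ B
  adj : ∀ i < n, G.Adj (p i) (p (i + 1))

/-- `x` runs around a cycle of length `L` inside `B`. -/
structure IsFunCycle (G : SimpleGraph V) (B : Finset V) (L : ℕ) (x : ℤ → V) : Prop where
  pos : 0 < L
  inj : ∀ i k : ℤ, x i = x k → (L : ℤ) ∣ k - i
  per : Function.Periodic x (L : ℤ)
  mem : ∀ i, x i ∈ B
  adj : ∀ i, G.Adj (x i) (x (i + 1))

/-- All paths of length `l` have ends of one colour. -/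
def Mono (G : SimpleGraph V) (B : Finset V) (l : ℕ) (c : V → Bool) : Prop :=
  ∀ p, IsFunPath G B l p → c (p 0) = c (p l)

variable {L l : ℕ} {x : ℤ → V} {c : V → Bool}

lemma IsFunCycle.ne (hx : IsFunCycle G B L x) {i k : ℤ} (h : i < k) (h' : k < i + L) :
    x i ≠ x k := fun e => by
  have := Int.le_of_dvd (by omega) (hx.inj i k e)
  omega

lemma IsFunCycle.adj' (hx : IsFunCycle G B L x) (i : ℤ) : G.Adj (x i) (x (i - 1)) := by
  have := (hx.adj (i - 1)).symm
  rwa [sub_add_cancel] at this

/-- The period `l` along the cycle. -/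
lemma periodic_l (hx : IsFunCycle G B L x) (hlL : l < L) (hmono : Mono G B l c) :
    Function.Periodic (fun i => c (x i)) (l : ℤ) := by
  intro i
  have h := hmono (fun t => x (i + t)) ⟨fun a ha b hb e => ?_, fun a _ => hx.mem _, fun a _ => ?_⟩
  · simpa using h.symm
  · rcases lt_trichotomy a b with h | h | h
    · exact absurd e (hx.ne (by omega) (by omega))
    · exact h
    · exact absurd e.symm (hx.ne (by omega) (by omega))
  · have := hx.adj (i + a)
    rwa [show i + ((a + 1 : ℕ) : ℤ) = i + a + 1 by push_cast; ring]

/-- Two arcs joined by a chord; `s` and `s'` are the directions along them. -/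
lemma chord_mono (hx : IsFunCycle G B L x) (hmono : Mono G B l c) {j k : ℤ}
    (hjk : G.Adj (x j) (x k)) {s s' : ℤ} (hs : s = 1 ∨ s = -1) (hs' : s' = 1 ∨ s' = -1) {a b : ℕ}
    (hab : a + 1 + b = l) (ha : (a : ℤ) < L) (hb : (b : ℤ) < L)
    (hdis : ∀ u : ℕ, u ≤ a → ∀ w : ℕ, w ≤ b → x (j + s * u) ≠ x (k + s' * w)) :
    c (x (j + s * a)) = c (x (k + s' * b)) := by
  classical
  set p : ℕ → V := fun t => if t ≤ a then x (j + s * ((a - t : ℕ) : ℤ))
    else x (k + s' * ((t - (a + 1) : ℕ) : ℤ)) with hp
  have h1 : ∀ t ≤ a, p t = x (j + s * ((a - t : ℕ) : ℤ)) := fun t ht => if_pos ht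
  have h2 : ∀ t, a < t → p t = x (k + s' * ((t - (a + 1) : ℕ) : ℤ)) := fun t ht =>
    if_neg (not_le.2 ht)
  have hstep : ∀ (i : ℤ) (e : ℤ), (e = 1 ∨ e = -1) → G.Adj (x i) (x (i + e)) := by
    intro i e he
    rcases he with rfl | rfl
    · exact hx.adj i
    · rw [← sub_eq_add_neg]; exact hx.adj' i
  have hne : ∀ (i : ℤ) (e : ℤ), (e = 1 ∨ e = -1) → ∀ u w : ℕ, (u : ℤ) < L → (w : ℤ) < L →
      x (i + e * u) = x (i + e * w) → u = w := by
    intro i e he u w hu hw heq
    have hd := hx.inj _ _ heq
    by_contra hcon
    rcases he with rfl | rfl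
    · rcases lt_or_gt_of_ne hcon with h | h
      · have := Int.le_of_dvd (by omega) hd; omega
      · have := Int.le_of_dvd (by omega) (dvd_neg.2 hd); omega
    · rcases lt_or_gt_of_ne hcon with h | h
      · have := Int.le_of_dvd (by omega) (dvd_neg.2 hd); omega
      · have := Int.le_of_dvd (by omega) hd; omega
  have hpath : IsFunPath G B l p := by
    refine ⟨fun u hu w hw e => ?_, fun t _ => ?_, fun t ht => ?_⟩
    · by_cases hua : u ≤ a <;> by_cases hwa : w ≤ a
      · rw [h1 u hua, h1 w hwa] at e
        have := hne j s hs _ _ (by omega) (by omega) e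
        omega
      · rw [h1 u hua, h2 w (by omega)] at e
        exact absurd e (hdis _ (Nat.sub_le _ _) _ (by omega))
      · rw [h2 u (by omega), h1 w hwa] at e
        exact absurd e.symm (hdis _ (Nat.sub_le _ _) _ (by omega))
      · rw [h2 u (by omega), h2 w (by omega)] at e
        have := hne k s' hs' _ _ (by omega) (by omega) e
        omega
    · simp only [hp]; split_ifs <;> exact hx.mem _
    · rcases lt_trichotomy t a with h | rfl | h
      · rw [h1 t h.le, h1 (t + 1) h]
        have := (hstep (j + s * ((a - (t + 1) : ℕ) : ℤ)) s hs).symm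
        have e : ((a - t : ℕ) : ℤ) = ((a - (t + 1) : ℕ) : ℤ) + 1 := by omega
        rw [e, mul_add, mul_one, ← add_assoc]
        exact this
      · rw [h1 t le_rfl, h2 (t + 1) (by omega)]
        simpa using hjk
      · rw [h2 t h, h2 (t + 1) (by omega)]
        have e : ((t + 1 - (a + 1) : ℕ) : ℤ) = ((t - (a + 1) : ℕ) : ℤ) + 1 := by omega
        rw [e, mul_add, mul_one, ← add_assoc]
        exact hstep _ s' hs'
  have h := hmono p hpath
  rw [h1 0 (Nat.zero_le _), h2 l (by omega)] at h
  rw [Nat.sub_zero, show l - (a + 1) = b by omega] at h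
  exact h

lemma exists_minimal_period {f : ℤ → Bool} {N : ℕ} (hN : 0 < N)
    (hf : Function.Periodic f (N : ℤ)) :
    ∃ p : ℤ, 0 < p ∧ Function.Periodic f p ∧ ∀ q, Function.Periodic f q → p ∣ q := by
  classical
  have hex : ∃ p : ℕ, 0 < p ∧ Function.Periodic f (p : ℤ) := ⟨N, hN, hf⟩
  obtain ⟨hp0, hp⟩ := Nat.find_spec hex
  refine ⟨(Nat.find hex : ℤ), by exact_mod_cast hp0, hp, fun q hq => ?_⟩
  set p : ℤ := (Nat.find hex : ℤ) with hpdef
  have hr : Function.Periodic f (q % p) := by
    intro i
    have h1 := hp.int_mul (q / p) (i + q % p)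
    simp only [Int.cast_id] at h1
    have h2 : i + q % p + q / p * p = i + q := by
      linarith [Int.emod_add_mul_ediv q p, mul_comm p (q / p)]
    rw [h2, hq i] at h1
    exact h1.symm
  by_contra hcon
  have h0 : 0 ≤ q % p := Int.emod_nonneg _ (by omega)
  have h1 : q % p < p := Int.emod_lt_of_pos _ (by omega)
  have h2 : q % p ≠ 0 := fun e => hcon (Int.dvd_of_emod_eq_zero e)
  have := Nat.find_min' hex (m := (q % p).toNat)
    ⟨by omega, by rwa [Int.toNat_of_nonneg h0]⟩
  omega

/-- A periodic property that holds on a full window holds everywhere. -/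
lemma of_window {p : ℤ} (hp : 0 < p) {P : ℤ → Prop} (hP : ∀ i t : ℤ, P i → P (i + t * p))
    {a₀ : ℤ} (h : ∀ i, a₀ ≤ i → i < a₀ + p → P i) (i : ℤ) : P i := by
  have h1 := h (a₀ + (i - a₀) % p) (by linarith [Int.emod_nonneg (i - a₀) hp.ne'])
    (by linarith [Int.emod_lt_of_pos (i - a₀) hp])
  have h2 := hP _ ((i - a₀) / p) h1
  have : a₀ + (i - a₀) % p + (i - a₀) / p * p = i := by
    linarith [Int.emod_add_mul_ediv (i - a₀) p, mul_comm p ((i - a₀) / p)]
  rwa [this] at h2

/-- A chord gives two reflections. -/
lemma chord_refl (hx : IsFunCycle G B L x) (hl : 1 ≤ l) (hlL : l < L) (hmono : Mono G B l c)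
    (j : ℤ) {r : ℕ} (hr2 : 2 ≤ r) (hrL : r + 2 ≤ L) (hadj : G.Adj (x j) (x (j + r))) :
    ∀ i, c (x i) = c (x (2 * j + r + 1 - i)) ∧ c (x i) = c (x (2 * j + r - 1 - i)) := by
  set f : ℤ → Bool := fun i => c (x i) with hf
  have hfl : Function.Periodic f (l : ℤ) := periodic_l hx hlL hmono
  have hfL : Function.Periodic f (L : ℤ) := hx.per.comp c
  obtain ⟨p, hp0, hp, hdvd⟩ := exists_minimal_period hx.pos hfL
  have hpl : p ≤ (l : ℤ) := Int.le_of_dvd (by omega) (hdvd _ hfl)
  have hpL : p ∣ (L : ℤ) := hdvd _ hfL
  have hpLl : p ≤ (L : ℤ) - l := Int.le_of_dvd (by omega) (dvd_sub hpL (hdvd _ hfl))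
  have hshift : ∀ i t : ℤ, f (i + t * p) = f i := fun i t => by
    simpa using hp.int_mul t i
  -- translations
  have hge : p ≤ (r : ℤ) := by
    by_contra hcon
    have hlr : (l : ℤ) + r ≤ L := by omega
    have key : ∀ i, f (i + ((r : ℤ) - 1)) = f i := by
      refine of_window hp0 (a₀ := j - (l : ℤ) + 1) (fun i t h => ?_) fun i h1 h2 => ?_
      · rw [add_right_comm, hshift, h, hshift]
      · obtain ⟨a, ha⟩ : ∃ a : ℕ, (a : ℤ) = j - i := ⟨(j - i).toNat, by omega⟩
        obtain ⟨b, hb⟩ : ∃ b : ℕ, (b : ℤ) = l - 1 - (j - i) := ⟨(l - 1 - (j - i)).toNat, by omega⟩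
        have h := chord_mono hx hmono hadj (s := -1) (s' := 1) (Or.inr rfl) (Or.inl rfl)
          (a := a) (b := b) (by omega) (by omega) (by omega)
          (fun u hu w hw => hx.ne (by omega) (by omega))
        rw [show j + -1 * (a : ℤ) = i by omega,
          show j + r + 1 * (b : ℤ) = i + ((r : ℤ) - 1) + (l : ℤ) by omega] at h
        rw [← hfl (i + ((r : ℤ) - 1))]
        exact h.symm
    have := Int.le_of_dvd (by omega) (hdvd _ key)
    omega
  have hge' : (r : ℤ) + p ≤ L := by
    by_contra hcon
    have hlr : (l : ℤ) ≤ r := by omega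
    have key : ∀ i, f (i + ((r : ℤ) + 1)) = f i := by
      refine of_window hp0 (a₀ := j) (fun i t h => ?_) fun i h1 h2 => ?_
      · rw [add_right_comm, hshift, h, hshift]
      · obtain ⟨a, ha⟩ : ∃ a : ℕ, (a : ℤ) = i - j := ⟨(i - j).toNat, by omega⟩
        obtain ⟨b, hb⟩ : ∃ b : ℕ, (b : ℤ) = l - 1 - (i - j) := ⟨(l - 1 - (i - j)).toNat, by omega⟩
        have h := chord_mono hx hmono hadj (s := 1) (s' := -1) (Or.inl rfl) (Or.inr rfl)
          (a := a) (b := b) (by omega) (by omega) (by omega)
          (fun u hu w hw => hx.ne (by omega) (by omega))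
        rw [show j + 1 * (a : ℤ) = i by omega,
          show j + r + -1 * (b : ℤ) = i + ((r : ℤ) + 1) - (l : ℤ) by omega] at h
        rw [← hfl.sub_eq (i + ((r : ℤ) + 1))]
        exact h.symm
    have := Int.le_of_dvd (by omega) (dvd_sub hpL (hdvd _ key))
    omega
  -- reflections
  intro i
  constructor
  · revert i
    refine of_window hp0 (a₀ := j - max 0 ((l : ℤ) - r) - p + 1) (fun i t h => ?_) fun i h1 h2 => ?_
    · change f (i + t * p) = f (2 * j + r + 1 - (i + t * p))
      rw [hshift, show 2 * j + (r : ℤ) + 1 - (i + t * p) = 2 * j + r + 1 - i + (-t) * p by ring,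
        hshift]
      exact h
    · obtain ⟨a, ha⟩ : ∃ a : ℕ, (a : ℤ) = j - i := ⟨(j - i).toNat, by omega⟩
      obtain ⟨b, hb⟩ : ∃ b : ℕ, (b : ℤ) = l - 1 - (j - i) := ⟨(l - 1 - (j - i)).toNat, by omega⟩
      have h := chord_mono hx hmono hadj (s := -1) (s' := -1) (Or.inr rfl) (Or.inr rfl)
        (a := a) (b := b) (by omega) (by omega) (by omega)
        (fun u hu w hw => hx.ne (by omega) (by omega))
      rw [show j + -1 * (a : ℤ) = i by omega,
        show j + r + -1 * (b : ℤ) = 2 * j + r + 1 - i - (l : ℤ) by omega] at h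
      exact h.trans (hfl.sub_eq _)
  · revert i
    refine of_window hp0 (a₀ := j + max 0 ((l : ℤ) - ((L : ℤ) - r))) (fun i t h => ?_)
      fun i h1 h2 => ?_
    · change f (i + t * p) = f (2 * j + r - 1 - (i + t * p))
      rw [hshift, show 2 * j + (r : ℤ) - 1 - (i + t * p) = 2 * j + r - 1 - i + (-t) * p by ring,
        hshift]
      exact h
    · obtain ⟨a, ha⟩ : ∃ a : ℕ, (a : ℤ) = i - j := ⟨(i - j).toNat, by omega⟩
      obtain ⟨b, hb⟩ : ∃ b : ℕ, (b : ℤ) = l - 1 - (i - j) := ⟨(l - 1 - (i - j)).toNat, by omega⟩
      have h := chord_mono hx hmono hadj (s := 1) (s' := 1) (Or.inl rfl) (Or.inl rfl)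
        (a := a) (b := b) (by omega) (by omega) (by omega)
        (fun u hu w hw => hx.ne (by omega) (by omega))
      rw [show j + 1 * (a : ℤ) = i by omega,
        show j + r + 1 * (b : ℤ) = 2 * j + r - 1 - i + (l : ℤ) by omega] at h
      exact h.trans (hfl _)

/-- The colours along the cycle have period two. -/
lemma periodic_two (hx : IsFunCycle G B L x) (hl : 1 ≤ l) (hlL : l < L) (hmono : Mono G B l c)
    (h3 : ∀ j, ∃ y ∈ B, G.Adj (x j) y ∧ y ≠ x (j - 1) ∧ y ≠ x (j + 1)) :
    Function.Periodic (fun i => c (x i)) 2 := by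
  classical
  intro i
  by_cases hch : ∃ (j : ℤ) (r : ℕ), 2 ≤ r ∧ r + 2 ≤ L ∧ G.Adj (x j) (x (j + r))
  · obtain ⟨j, r, h2, hL, hadj⟩ := hch
    have h := chord_refl hx hl hlL hmono j h2 hL hadj
    have e1 := (h (i + 2)).1
    have e2 := (h i).2
    rw [show 2 * j + (r : ℤ) + 1 - (i + 2) = 2 * j + r - 1 - i by ring] at e1
    exact e1.trans e2.symm
  · push Not at hch
    obtain ⟨y, hyB, hadj, hy1, hy2⟩ := h3 (i + 1)
    have hoff : ∀ k, y ≠ x k := by
      intro k hk
      obtain ⟨r, hr⟩ : ∃ r : ℕ, (r : ℤ) = (k - (i + 1)) % L :=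
        ⟨((k - (i + 1)) % L).toNat,
          Int.toNat_of_nonneg (Int.emod_nonneg _ (by have := hx.pos; omega))⟩
      have hrL : (r : ℤ) < L := hr ▸ Int.emod_lt_of_pos _ (by have := hx.pos; omega)
      have hxk : x k = x (i + 1 + r) := by
        have hq := Int.emod_add_mul_ediv (k - (i + 1)) L
        have e := hx.per.int_mul ((k - (i + 1)) / L) (i + 1 + r)
        simp only [Int.cast_id] at e
        rw [← e]
        congr 1
        rw [hr]
        linarith [mul_comm (L : ℤ) ((k - (i + 1)) / L)]
      rcases Nat.lt_or_ge r 2 with h | h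
      · interval_cases r
        · rw [hk, hxk] at hadj
          simp at hadj
        · exact hy2 (by rw [hk, hxk]; rfl)
      · rcases Nat.lt_or_ge L (r + 2) with h' | h'
        · refine hy1 ?_
          rw [hk, hxk, show i + 1 + (r : ℤ) = i + 1 - 1 + (L : ℤ) by omega, hx.per]
        · exact hch (i + 1) r h h' (by rwa [← hxk, ← hk])
    have hgen : ∀ s : ℤ, (s = 1 ∨ s = -1) → c y = c (x (i + 1 + s * ((l : ℤ) - 1))) := by
      intro s hs
      have h := hmono (fun t => if t = 0 then y else x (i + 1 + s * ((t : ℤ) - 1)))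
        ⟨fun u hu w hw e => ?_, fun t _ => by split_ifs <;> [exact hyB; exact hx.mem _],
          fun t ht => ?_⟩
      · simpa [show l ≠ 0 by omega] using h
      · by_cases hu0 : u = 0 <;> by_cases hw0 : w = 0 <;> simp only [hu0, hw0, if_true, if_false] at e
        · omega
        · exact absurd e (hoff _)
        · exact absurd e.symm (hoff _)
        · by_contra hcon
          have hd := hx.inj _ _ e
          rcases hs with rfl | rfl <;> rcases lt_or_gt_of_ne hcon with h | h
          · have := Int.le_of_dvd (by omega) hd; omega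
          · have := Int.le_of_dvd (by omega) (dvd_neg.2 hd); omega
          · have := Int.le_of_dvd (by omega) (dvd_neg.2 hd); omega
          · have := Int.le_of_dvd (by omega) hd; omega
      · by_cases ht0 : t = 0
        · subst ht0; simpa using hadj.symm
        · simp only [ht0, if_false, show t + 1 ≠ 0 by omega]
          have e : i + 1 + s * (((t + 1 : ℕ) : ℤ) - 1) = i + 1 + s * ((t : ℤ) - 1) + s := by
            push_cast; ring
          rw [e]
          rcases hs with rfl | rfl
          · exact hx.adj _
          · rw [← sub_eq_add_neg]; exact hx.adj' _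
    have a1 := hgen 1 (Or.inl rfl)
    have a2 := hgen (-1) (Or.inr rfl)
    rw [show i + 1 + 1 * ((l : ℤ) - 1) = i + l by ring] at a1
    rw [show i + 1 + -1 * ((l : ℤ) - 1) = i + 2 - l by ring] at a2
    change c (x (i + 2)) = c (x i)
    have b1 : c (x (i + l)) = c (x i) := periodic_l hx hlL hmono i
    have b2 : c (x (i + 2 - l)) = c (x (i + 2)) := (periodic_l hx hlL hmono).sub_eq (i + 2)
    rw [← b1, ← b2, ← a1, ← a2]

/-- A path from outside to the cycle fixes the colour of its first vertex. -/
lemma color_eq (hx : IsFunCycle G B L x) (hlL : l < L) (hl : 1 ≤ l) (hmono : Mono G B l c)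
    (h2 : Function.Periodic (fun i => c (x i)) 2) :
    ∀ (n : ℕ) (p : ℕ → V) (j : ℤ), IsFunPath G B n p → p n = x j →
      (∀ i < n, ∀ k, p i ≠ x k) → c (p 0) = c (x (j + n)) := by
  intro n
  induction n using Nat.strong_induction_on with
  | _ n ih =>
    intro p j hp hpn hoff
    have hfl := periodic_l hx hlL hmono
    rcases Nat.eq_zero_or_pos n with rfl | hn
    · simp [hpn]
    rcases le_or_gt n l with hnl | hnl
    · set q : ℕ → V := fun t => if t < n then p t else x (j + ((t - n : ℕ) : ℤ)) with hq
      have h := hmono q ⟨fun u hu w hw e => ?_, fun t ht => ?_, fun t ht => ?_⟩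
      · simp only [hq, hn, if_true, show ¬ l < n by omega, if_false] at h
        rw [h]
        have e1 : c (x (j + ((l - n : ℕ) : ℤ))) = c (x (j - n)) := by
          rw [show j + ((l - n : ℕ) : ℤ) = j - n + (l : ℤ) by omega]
          exact hfl _
        have e2 := h2.int_mul (n : ℤ) (j - n)
        simp only [Int.cast_id] at e2
        rw [e1, ← e2, show j - (n : ℤ) + (n : ℤ) * 2 = j + n by ring]
      · by_cases hun : u < n <;> by_cases hwn : w < n <;>
          simp only [hq, hun, hwn, if_true, if_false] at e
        · exact hp.inj u hun.le w hwn.le e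
        · exact absurd e (hoff u hun _)
        · exact absurd e.symm (hoff w hwn _)
        · by_contra hcon
          rcases lt_or_gt_of_ne hcon with h | h
          · exact hx.ne (by omega) (by omega) e
          · exact hx.ne (by omega) (by omega) e.symm
      · simp only [hq]
        split_ifs with h
        · exact hp.mem t h.le
        · exact hx.mem _
      · rcases lt_trichotomy (t + 1) n with h | h | h
        · simp only [hq, show t < n by omega, h, if_true]
          exact hp.adj t (by omega)
        · have := hp.adj t (by omega)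
          rw [h, hpn] at this
          simpa [hq, show t < n by omega, h] using this
        · simp only [hq, show ¬ t < n by omega, show ¬ t + 1 < n by omega, if_false]
          rw [show j + ((t + 1 - n : ℕ) : ℤ) = j + ((t - n : ℕ) : ℤ) + 1 by omega]
          exact hx.adj _
    · have h0 : c (p 0) = c (p l) :=
        hmono p ⟨fun u hu w hw => hp.inj u (by omega) w (by omega),
          fun t ht => hp.mem t (by omega), fun t ht => hp.adj t (by omega)⟩
      have h1 := ih (n - l) (by omega) (fun t => p (l + t)) j
        ⟨fun u hu w hw e => by have := hp.inj _ (by omega) _ (by omega) e; omega,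
          fun t ht => hp.mem _ (by omega), fun t ht => hp.adj (l + t) (by omega)⟩
        (by rw [show l + (n - l) = n by omega]; exact hpn)
        (fun t ht k => hoff _ (by omega) k)
      rw [h0]
      simp only [add_zero] at h1
      rw [h1]
      have := hfl (j + ((n - l : ℕ) : ℤ))
      simp only at this
      rw [← this]
      congr 2
      omega

/-- The colours are constant or give a bipartition. -/
lemma mono_constant_or_bipartite (hx : IsFunCycle G B L x) (hl : 1 ≤ l) (hlL : l < L)
    (hmono : Mono G B l c) (h3 : ∀ j, ∃ y ∈ B, G.Adj (x j) y ∧ y ≠ x (j - 1) ∧ y ≠ x (j + 1))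
    (hconn : ∀ y ∈ B, Relation.ReflTransGen (StepIn G B ∅) y (x 0)) :
    (∀ y ∈ B, c y = c (x 0)) ∨ ∀ y ∈ B, ∀ z ∈ B, G.Adj y z → c y ≠ c z := by
  classical
  have h2 := periodic_two hx hl hlL hmono h3
  -- a shortest walk to the cycle
  let W : V → ℕ → Prop := fun y n => ∃ p : ℕ → V, p 0 = y ∧ (∃ j, p n = x j) ∧
    (∀ i ≤ n, p i ∈ B) ∧ ∀ i < n, G.Adj (p i) (p (i + 1))
  have hW : ∀ y ∈ B, ∃ n, W y n := by
    intro y hy
    have h := hconn y hy
    clear hy
    induction h using Relation.ReflTransGen.head_induction_on with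
    | refl => exact ⟨0, fun _ => x 0, rfl, ⟨0, rfl⟩, fun _ _ => hx.mem 0, fun i hi => by omega⟩
    | @head a b hab _ ih =>
      obtain ⟨n, p, hp0, ⟨j, hj⟩, hpB, hpa⟩ := ih
      refine ⟨n + 1, fun t => if t = 0 then a else p (t - 1), by simp, ⟨j, by simpa using hj⟩,
        fun i hi => ?_, fun i hi => ?_⟩
      · dsimp only; split_ifs with h
        · exact hab.2.1
        · exact hpB _ (by omega)
      · by_cases h : i = 0
        · subst h; simpa [hp0] using hab.1
        · simp only [h, if_false, show i + 1 ≠ 0 by omega, Nat.add_sub_cancel]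
          have := hpa (i - 1) (by omega)
          rwa [Nat.sub_add_cancel (by omega)] at this
  have hmin : ∀ y ∈ B, ∃ n p j, W y n ∧ (∀ n', W y n' → n ≤ n') ∧ IsFunPath G B n p ∧
      p 0 = y ∧ p n = x j ∧ ∀ i < n, ∀ k, p i ≠ x k := by
    intro y hy
    obtain ⟨p, hp0, ⟨j, hj⟩, hpB, hpa⟩ := Nat.find_spec (hW y hy)
    set n := Nat.find (hW y hy)
    have hle : ∀ n', W y n' → n ≤ n' := fun n' h => Nat.find_min' _ h
    have hlt : ∀ i k, i < k → k ≤ n → p i ≠ p k := by
      intro i k hik hkn e
      have : W y (n - (k - i)) := by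
        refine ⟨fun t => if t ≤ i then p t else p (t + (k - i)), by simp [hp0], ⟨j, ?_⟩,
          fun t ht => ?_, fun t ht => ?_⟩
        · by_cases hki : n - (k - i) ≤ i
          · simp only [hki, if_true]
            rw [show n - (k - i) = i by omega, e, show k = n by omega, hj]
          · simp only [hki, if_false]
            rw [show n - (k - i) + (k - i) = n by omega, hj]
        · dsimp only; split_ifs
          · exact hpB t (by omega)
          · exact hpB _ (by omega)
        · rcases lt_trichotomy t i with h | h | h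
          · simp only [h.le, show t + 1 ≤ i by omega, if_true]
            exact hpa t (by omega)
          · subst h
            simp only [le_refl, show ¬ t + 1 ≤ t by omega, if_true, if_false]
            rw [e, show t + 1 + (k - t) = k + 1 by omega]
            exact hpa k (by omega)
          · simp only [show ¬ t ≤ i by omega, show ¬ t + 1 ≤ i by omega, if_false]
            rw [show t + 1 + (k - i) = t + (k - i) + 1 by omega]
            exact hpa _ (by omega)
      have := hle _ this
      omega
    refine ⟨n, p, j, ⟨p, hp0, ⟨j, hj⟩, hpB, hpa⟩, hle, ⟨fun i hi k hk e => ?_, hpB, hpa⟩, hp0, hj,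
      fun i hi k e => ?_⟩
    · rcases lt_trichotomy i k with h | h | h
      · exact absurd e (hlt i k h hk)
      · exact h
      · exact absurd e.symm (hlt k i h hi)
    · have : W y i := ⟨p, hp0, ⟨k, e⟩, fun t ht => hpB t (by omega), fun t ht => hpa t (by omega)⟩
      have := hle _ this
      omega
  have hcol : ∀ y ∈ B, ∃ i, c y = c (x i) := by
    intro y hy
    obtain ⟨n, p, j, -, -, hp, hp0, hpn, hoff⟩ := hmin y hy
    exact ⟨j + n, hp0 ▸ color_eq hx hlL hl hmono h2 n p j hp hpn hoff⟩
  by_cases h01 : c (x 0) = c (x 1)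
  · left
    have hall : ∀ i, c (x i) = c (x 0) :=
      of_window (by norm_num : (0 : ℤ) < 2) (a₀ := 0)
        (fun i t h => by
          have := h2.int_mul t i
          simp only [Int.cast_id] at this
          rw [this, h])
        fun i h0 h1 => by interval_cases i <;> simp [h01]
    intro y hy
    obtain ⟨i, hi⟩ := hcol y hy
    rw [hi, hall]
  · right
    have halt : ∀ i, c (x (i + 1)) ≠ c (x i) :=
      of_window (by norm_num : (0 : ℤ) < 2) (a₀ := 0)
        (fun i t h => by
          have e1 := h2.int_mul t i
          have e2 := h2.int_mul t (i + 1)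
          simp only [Int.cast_id] at e1 e2
          rw [show i + t * 2 + 1 = i + 1 + t * 2 by ring, e1, e2]
          exact h)
        fun i h0 h1 => by
          interval_cases i
          · exact fun h => h01 h.symm
          · intro h
            have := h2 0
            simp only [zero_add] at this
            exact h01 (this.symm.trans h)
    intro y hy z hz hadj
    obtain ⟨n, p, j, -, hle, hp, hp0, hpn, hoff⟩ := hmin y hy
    have hy' := color_eq hx hlL hl hmono h2 n p j hp hpn hoff
    rw [hp0] at hy'
    by_cases hzC : ∃ k, z = x k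
    · obtain ⟨k, rfl⟩ := hzC
      by_cases hyC : ∃ i, y = x i
      · obtain ⟨i, rfl⟩ := hyC
        obtain ⟨r, hr⟩ : ∃ r : ℕ, (r : ℤ) = (k - i) % L :=
          ⟨((k - i) % L).toNat,
            Int.toNat_of_nonneg (Int.emod_nonneg _ (by have := hx.pos; omega))⟩
        have hrL : (r : ℤ) < L := hr ▸ Int.emod_lt_of_pos _ (by have := hx.pos; omega)
        have hxk : x k = x (i + r) := by
          have e := hx.per.int_mul ((k - i) / L) (i + r)
          simp only [Int.cast_id] at e
          rw [← e]
          congr 1
          rw [hr]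
          linarith [mul_comm (L : ℤ) ((k - i) / L), Int.emod_add_mul_ediv (k - i) L]
        rw [hxk] at hadj ⊢
        rcases Nat.lt_or_ge r 2 with h | h
        · interval_cases r
          · simp at hadj
          · exact (halt i).symm
        · rcases Nat.lt_or_ge L (r + 2) with h' | h'
          · rw [show i + (r : ℤ) = i - 1 + (L : ℤ) by omega, hx.per]
            have := halt (i - 1)
            rwa [sub_add_cancel] at this
          · have e := (chord_refl hx hl hlL hmono i h h' hadj i).1
            rw [show 2 * i + (r : ℤ) + 1 - i = i + r + 1 by ring] at e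
            rw [e]
            exact halt _
      · push Not at hyC
        have h1 := color_eq hx hlL hl hmono h2 1 (fun t => if t = 0 then y else x k) k
          ⟨fun u hu w hw e => ?_, fun t _ => by split_ifs <;> [exact hy; exact hx.mem _],
            fun t ht => by simpa [show t = 0 by omega] using hadj⟩ (by simp)
          (fun t ht i => by simpa [show t = 0 by omega] using hyC i)
        · simp only [if_true, Nat.cast_one] at h1
          rw [h1]
          exact halt k
        · by_cases hu0 : u = 0 <;> by_cases hw0 : w = 0 <;>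
            simp only [hu0, hw0, if_true, if_false] at e
          · omega
          · exact absurd e (hyC k)
          · exact absurd e.symm (hyC k)
          · omega
    · push Not at hzC
      by_cases hzp : ∃ i ≤ n, p i = z
      · obtain ⟨i, hi, rfl⟩ := hzp
        have hi0 : i ≠ 0 := by
          rintro rfl
          rw [hp0] at hadj
          exact G.irrefl hadj
        have hin : i ≠ n := fun e => hzC j (e ▸ hpn)
        have hi1 : i = 1 := by
          have : W y (n - i + 1) := by
            refine ⟨fun t => if t = 0 then y else p (t - 1 + i), by simp, ⟨j, ?_⟩, fun t ht => ?_,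
              fun t ht => ?_⟩
            · simp only [Nat.add_one_ne_zero, if_false, Nat.add_sub_cancel]
              rw [show n - i + i = n by omega, hpn]
            · dsimp only; split_ifs
              · exact hy
              · exact hp.mem _ (by omega)
            · by_cases h : t = 0
              · subst h; simpa using hadj
              · simp only [h, Nat.add_one_ne_zero, if_false]
                rw [show t + 1 - 1 + i = t - 1 + i + 1 by omega]
                exact hp.adj _ (by omega)
          have := hle _ this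
          omega
        subst hi1
        have h1 := color_eq hx hlL hl hmono h2 (n - 1) (fun t => p (t + 1)) j
          ⟨fun u hu w hw e => by have := hp.inj _ (by omega) _ (by omega) e; omega,
            fun t ht => hp.mem _ (by omega), fun t ht => hp.adj (t + 1) (by omega)⟩
          (by rw [show n - 1 + 1 = n by omega, hpn]) (fun t ht k => hoff _ (by omega) k)
        simp only [zero_add] at h1
        rw [hy', h1, show j + (n : ℤ) = j + ((n - 1 : ℕ) : ℤ) + 1 by omega]
        exact halt _
      · push Not at hzp
        have h1 := color_eq hx hlL hl hmono h2 (n + 1) (fun t => if t = 0 then z else p (t - 1)) j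
          ⟨fun u hu w hw e => ?_, fun t ht => ?_, fun t ht => ?_⟩ (by simpa using hpn)
          (fun t ht k => ?_)
        · simp only [if_true] at h1
          rw [hy', h1, show j + ((n + 1 : ℕ) : ℤ) = j + n + 1 by push_cast; ring]
          exact (halt _).symm
        · by_cases hu0 : u = 0 <;> by_cases hw0 : w = 0 <;>
            simp only [hu0, hw0, if_true, if_false] at e
          · omega
          · exact absurd e.symm (hzp _ (by omega))
          · exact absurd e (hzp _ (by omega))
          · have := hp.inj _ (by omega) _ (by omega) e; omega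
        · split_ifs
          · exact hz
          · exact hp.mem _ (by omega)
        · by_cases h : t = 0
          · subst h; simpa [hp0] using hadj.symm
          · simp only [h, Nat.add_one_ne_zero, if_false, Nat.add_sub_cancel]
            have := hp.adj (t - 1) (by omega)
            rwa [Nat.sub_add_cancel (by omega)] at this
        · split_ifs with h
          · exact hzC k
          · exact hoff _ (by omega) k

/-- A path of length `l` with ends in the two colour classes (PROOF step 2, AB lemma). -/
theorem exists_path_cross [DecidableEq V] [DecidableRel G.Adj] {cyc : List V}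
    (hcyc : CycleIn G B cyc) (h3 : ∀ v ∈ cyc, 3 ≤ #(B.filter (G.Adj v)))
    (hconn : ∀ v ∈ B, ∀ w ∈ B, Relation.ReflTransGen (StepIn G B ∅) v w)
    (hnb : ¬ ∃ f : V → Bool, ∀ v ∈ B, ∀ w ∈ B, G.Adj v w → f v ≠ f w)
    (hl : 1 ≤ l) (hlL : l < cyc.length) (P : V → Prop)
    (hP : ∃ v ∈ B, P v) (hnP : ∃ v ∈ B, ¬ P v) :
    ∃ (q : List V) (hne : q ≠ []), PathIn G B q ∧ q.length = l + 1 ∧ P (q.head hne) ∧
      ¬ P (q.getLast hne) := by
  classical
  obtain ⟨⟨hnd, hmem, hch⟩, hne, hclose⟩ := hcyc
  set L := cyc.length with hL
  have hL0 : 0 < L := by omega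
  have hidx : ∀ i : ℤ, (i % L).toNat < L := fun i => by
    have := Int.emod_lt_of_pos i (show (0 : ℤ) < L by omega)
    have := Int.emod_nonneg i (show (L : ℤ) ≠ 0 by omega)
    omega
  set x : ℤ → V := fun i => cyc[(i % L).toNat]'(hidx i) with hxdef
  have hget : ∀ {i k : ℕ} (hi : i < L) (hk : k < L), i = k → cyc[i] = cyc[k] :=
    fun _ _ h => by subst h; rfl
  have hx : IsFunCycle G B L x := by
    refine ⟨hL0, fun i k e => ?_, fun i => ?_, fun i => hmem _ (List.getElem_mem _), fun i => ?_⟩
    · have h := (hnd.getElem_inj_iff).1 e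
      have h1 := Int.emod_nonneg i (show (L : ℤ) ≠ 0 by omega)
      have h2 := Int.emod_nonneg k (show (L : ℤ) ≠ 0 by omega)
      exact Int.ModEq.dvd (show i % L = k % L by omega)
    · exact hget _ _ (by rw [Int.add_emod_right])
    · have h1 := Int.emod_nonneg i (show (L : ℤ) ≠ 0 by omega)
      have h2 := Int.emod_lt_of_pos i (show (0 : ℤ) < L by omega)
      have h3' := Int.emod_add_mul_ediv i L
      by_cases hlast : i % L + 1 = L
      · have hz : (i + 1) % L = 0 := by
          refine Int.emod_eq_zero_of_dvd ⟨i / L + 1, ?_⟩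
          linarith
        have e1 : x i = cyc.getLast hne := by
          rw [List.getLast_eq_getElem]
          exact hget _ _ (by omega)
        have e2 : x (i + 1) = cyc.head hne := by
          rw [List.head_eq_getElem]
          exact hget _ _ (by omega)
        rw [e1, e2]
        exact hclose
      · have hz : (i + 1) % L = i % L + 1 := by
          have e : i + 1 = i % L + 1 + (L : ℤ) * (i / L) := by linarith
          rw [e, Int.add_mul_emod_self_left]
          exact Int.emod_eq_of_lt (by omega) (by omega)
        have e2 : x (i + 1) = cyc[(i % L).toNat + 1]'(by omega) := hget _ _ (by omega)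
        rw [e2]
        exact (List.isChain_iff_getElem.1 hch) _ (by omega)
  have h3' : ∀ j, ∃ y ∈ B, G.Adj (x j) y ∧ y ≠ x (j - 1) ∧ y ≠ x (j + 1) := by
    intro j
    have hcard : #({x (j - 1), x (j + 1)} : Finset V) < #(B.filter (G.Adj (x j))) :=
      (Finset.card_le_two).trans_lt (by have := h3 (x j) (List.getElem_mem _); omega)
    obtain ⟨y, hy1, hy2⟩ := exists_mem_notMem_of_card_lt_card hcard
    simp only [mem_insert, mem_singleton, not_or] at hy2
    exact ⟨y, (mem_filter.1 hy1).1, (mem_filter.1 hy1).2, hy2.1, hy2.2⟩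
  set c : V → Bool := fun v => decide (P v) with hc
  by_contra hcon
  have hmono : Mono G B l c := by
    intro p hp
    have hlist : ∀ (q : ℕ → V), IsFunPath G B l q → ¬ (P (q 0) ∧ ¬ P (q l)) := by
      rintro q hq ⟨hA, hB⟩
      refine hcon ⟨(List.range (l + 1)).map q, by simp, ⟨?_, ?_, ?_⟩, by simp, ?_, ?_⟩
      · refine List.Nodup.map_on (fun a ha b hb e => ?_) List.nodup_range
        exact hq.inj a (by simpa [Nat.lt_succ_iff] using ha) b
          (by simpa [Nat.lt_succ_iff] using hb) e
      · intro v hv
        obtain ⟨a, ha, rfl⟩ := List.mem_map.1 hv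
        exact hq.mem a (by simpa [Nat.lt_succ_iff] using ha)
      · rw [List.isChain_iff_getElem]
        intro i hi
        simp only [List.length_map, List.length_range] at hi
        simpa using hq.adj i (by omega)
      · simpa [List.head_eq_getElem] using hA
      · simpa [List.getLast_eq_getElem] using hB
    have h1 := hlist p hp
    have h2 := hlist (fun t => p (l - t))
      ⟨fun a ha b hb e => by have := hp.inj _ (Nat.sub_le l a) _ (Nat.sub_le l b) e; omega,
        fun a _ => hp.mem _ (Nat.sub_le l a), fun a ha => by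
          have := (hp.adj (l - (a + 1)) (by omega)).symm
          rwa [show l - (a + 1) + 1 = l - a by omega] at this⟩
    simp only [Nat.sub_self, Nat.sub_zero] at h2
    simp only [hc, decide_eq_decide]
    tauto
  rcases mono_constant_or_bipartite hx hl hlL hmono h3'
      (fun y hy => hconn y hy _ (hx.mem 0)) with h | h
  · obtain ⟨a, ha, hPa⟩ := hP
    obtain ⟨b, hb, hPb⟩ := hnP
    have := (h a ha).trans (h b hb).symm
    simp [hc, hPa, hPb] at this
  · exact hnb ⟨c, h⟩

end Vale.Agent.P048.Cross
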