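import Vale.Agent.P048.Layer
import Vale.Agent.P048.Cross

/-!
Assembly for P048: a minimal counterexample has large minimum degree, is connected and dominates
small sets by independent sets; the layering step then gives one of the two cluster shapes.
-/

namespace Vale.Agent.P048.Assembly

open Finset
open Dirac (StepIn PathIn CycleIn)

variable {V : Type*}

/-- A cycle on exactly `m` vertices. -/
def HasC [Fintype V] (G : SimpleGraph V) (m : ℕ) : Prop :=
  ∃ l, CycleIn G univ l ∧ l.length = m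

/-- An independent set on at least `n` vertices. -/
def HasI (G : SimpleGraph V) (n : ℕ) : Prop :=
  ∃ I : Finset V, n ≤ #I ∧ ∀ x ∈ I, ∀ y ∈ I, ¬ G.Adj x y

/-- What is known about a minimal counterexample. -/
structure Minimal [Fintype V] [DecidableEq V] (G : SimpleGraph V) [DecidableRel G.Adj]
    (m n : ℕ) : Prop where
  noC : ¬ HasC G m
  alpha : ∀ I : Finset V, (∀ x ∈ I, ∀ y ∈ I, ¬ G.Adj x y) → #I < n
  deg : ∀ x, m - 1 ≤ #(univ.filter (G.Adj x))
  conn : G.Connected
  card : (m - 1) * (n - 1) < Fintype.card V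
  dominate : ∀ Z : Finset V, #Z ≤ m - 1 → ∃ I : Finset V, (∀ x ∈ I, x ∉ Z) ∧
    (∀ x ∈ I, ∀ y ∈ I, ¬ G.Adj x y) ∧ n ≤ #I + 1 ∧ ∀ z ∈ Z, ∃ i ∈ I, G.Adj z i

/-- The first cluster shape. -/
def ClusterOne [Fintype V] [DecidableEq V] (G : SimpleGraph V) [DecidableRel G.Adj] (m n : ℕ) :
    Prop :=
  ∃ D : Finset V, #D < m ∧ (∀ x ∈ D, (m - 1) / 2 + 1 ≤ #(D.filter (G.Adj x))) ∧
    (m - 1) / 2 + 2 ≤ #D ∧ n ≤ #D

/-- The second cluster shape. -/
def ClusterTwo [Fintype V] [DecidableEq V] (G : SimpleGraph V) [DecidableRel G.Adj] (m n : ℕ) :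
    Prop :=
  ∃ (B : Finset V) (a b : V) (X : List V) (d : ℕ), 2 ≤ d ∧ X.length = 2 * d - 1 ∧ X.Nodup ∧
    (∀ x ∈ X, x ∉ B) ∧ (a :: (X ++ [b])).IsChain G.Adj ∧ a ∈ B ∧ b ∈ B ∧ a ≠ b ∧
    #B + 2 * d ≤ m ∧ (∀ x ∈ B, (m - 1) / 2 ≤ #(B.filter (G.Adj x))) ∧
    (m - 1) / 2 + 1 ≤ #B ∧ n + 1 ≤ #B

theorem hasC_of_clique [Fintype V] [DecidableEq V] (G : SimpleGraph V) {m : ℕ} (hm : 3 ≤ m)
    (S : Finset V) (hS : ∀ x ∈ S, ∀ y ∈ S, x ≠ y → G.Adj x y) (hcard : #S = m) : HasC G m := by
  have hlen : S.toList.length = m := by rw [length_toList, hcard]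
  have hne : S.toList ≠ [] := by intro h; simp [h] at hlen; omega
  refine ⟨S.toList, ⟨⟨nodup_toList _, fun x _ => mem_univ x, ?_⟩, hne, ?_⟩, hlen⟩
  · refine List.isChain_iff_getElem.2 fun i hi => ?_
    exact hS _ (mem_toList.1 (List.getElem_mem _)) _ (mem_toList.1 (List.getElem_mem _)) fun h => by
      have := (List.Nodup.getElem_inj_iff (nodup_toList S)).1 h
      omega
  · rw [List.getLast_eq_getElem, List.head_eq_getElem]
    exact hS _ (mem_toList.1 (List.getElem_mem _)) _ (mem_toList.1 (List.getElem_mem _)) fun h => by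
      have := (List.Nodup.getElem_inj_iff (nodup_toList S)).1 h
      omega

/-- Cycles and independent sets of an induced subgraph lift. -/
theorem of_induce [Fintype V] (G : SimpleGraph V) (S : Finset V) {m k : ℕ}
    (h : HasC (G.induce (S : Set V)) m ∨ HasI (G.induce (S : Set V)) k) :
    HasC G m ∨ ∃ I ⊆ S, k ≤ #I ∧ ∀ x ∈ I, ∀ y ∈ I, ¬ G.Adj x y := by
  rcases h with ⟨l, ⟨⟨hnd, -, hch⟩, hne, hclose⟩, hlen⟩ | ⟨I, hI, hind⟩
  · refine Or.inl ⟨l.map Subtype.val, ⟨⟨hnd.map Subtype.val_injective, fun x _ => mem_univ x, ?_⟩,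
      fun h => hne (List.map_eq_nil_iff.1 h), ?_⟩, by simpa using hlen⟩
    · rw [List.isChain_map]
      exact hch.imp fun a b h => h
    · rw [List.getLast_map, List.head_map]
      exact hclose
  · refine Or.inr ⟨I.map ⟨Subtype.val, Subtype.val_injective⟩, ?_, by simpa using hI, ?_⟩
    · intro x hx
      obtain ⟨y, -, rfl⟩ := mem_map.1 hx
      exact y.2
    · intro x hx y hy
      obtain ⟨x', hx', rfl⟩ := mem_map.1 hx
      obtain ⟨y', hy', rfl⟩ := mem_map.1 hy
      exact hind x' hx' y' hy'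

/-- The induction on `n`: a counterexample yields a minimal one. -/
theorem hasC_or_hasI_of_no_minimal {m : ℕ} (hm : 3 ≤ m) :
    ∀ n : ℕ, (∀ k, 3 ≤ k → k ≤ n → ∀ (U : Type) [Fintype U] [DecidableEq U] (H : SimpleGraph U)
        [DecidableRel H.Adj], ¬ Minimal H m k) →
      ∀ (V : Type) [Fintype V] [DecidableEq V] (G : SimpleGraph V) [DecidableRel G.Adj],
        (m - 1) * (n - 1) < Fintype.card V → HasC G m ∨ HasI G n := by
  intro n
  induction n using Nat.strong_induction_on with
  | _ n ih =>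
  intro hno V _ _ G _ hcard
  classical
  have hsub : ∀ (j : ℕ) (S : Finset V), j < n → (m - 1) * (j - 1) < #S →
      HasC G m ∨ ∃ I ⊆ S, j ≤ #I ∧ ∀ x ∈ I, ∀ y ∈ I, ¬ G.Adj x y := fun j S hj hS =>
    of_induce G S (ih j hj (fun k h3 hk => hno k h3 (hk.trans hj.le)) {x // x ∈ S} _
      (by rw [Fintype.card_coe]; exact hS))
  rcases Nat.lt_or_ge n 2 with hn | hn
  · obtain ⟨x⟩ : Nonempty V := Fintype.card_pos_iff.1 (by omega)
    exact Or.inr ⟨{x}, by simp; omega, by simp⟩
  rcases hn.eq_or_lt with rfl | hn3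
  · by_cases hK : ∃ x y, x ≠ y ∧ ¬ G.Adj x y
    · obtain ⟨x, y, hne, hxy⟩ := hK
      refine Or.inr ⟨{x, y}, by rw [card_pair hne], ?_⟩
      intro a ha b hb
      simp only [mem_insert, mem_singleton] at ha hb
      rcases ha with rfl | rfl <;> rcases hb with rfl | rfl
      · exact G.irrefl
      · exact hxy
      · exact fun h => hxy h.symm
      · exact G.irrefl
    · push Not at hK
      obtain ⟨S, -, hS⟩ := exists_subset_card_eq (s := (univ : Finset V)) (n := m)
        (by rw [card_univ]; omega)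
      exact Or.inl (hasC_of_clique G hm S (fun x _ y _ h => hK x y h) hS)
  by_contra hcon
  rw [not_or] at hcon
  obtain ⟨hC, hI⟩ := hcon
  have halpha : ∀ I : Finset V, (∀ x ∈ I, ∀ y ∈ I, ¬ G.Adj x y) → #I < n := fun I hI' => by
    by_contra h
    exact hI ⟨I, by omega, hI'⟩
  have hmul : (m - 1) * (n - 1) = (m - 1) * (n - 1 - 1) + (m - 1) := by
    rw [← Nat.mul_succ]; congr 1; omega
  -- small sets are dominated
  have hdom : ∀ Z : Finset V, #Z ≤ m - 1 → ∃ I : Finset V, (∀ x ∈ I, x ∉ Z) ∧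
      (∀ x ∈ I, ∀ y ∈ I, ¬ G.Adj x y) ∧ n ≤ #I + 1 ∧ ∀ z ∈ Z, ∃ i ∈ I, G.Adj z i := by
    intro Z hZ
    obtain ⟨I, hIS, hIc, hind⟩ := (hsub (n - 1) (univ \ Z) (by omega) (by
      rw [card_univ_sdiff]; omega)).resolve_left hC
    refine ⟨I, fun x hx => (mem_sdiff.1 (hIS hx)).2, hind, by omega, fun z hz => ?_⟩
    by_contra hcon'
    push Not at hcon'
    have hzI : z ∉ I := fun h => (mem_sdiff.1 (hIS h)).2 hz
    have := halpha (insert z I) fun a ha b hb => by
      rcases mem_insert.1 ha with rfl | ha' <;> rcases mem_insert.1 hb with rfl | hb'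
      · exact G.irrefl
      · exact hcon' b hb'
      · exact fun h => hcon' a ha' h.symm
      · exact hind a ha' b hb'
    rw [card_insert_of_notMem hzI] at this
    omega
  refine hno n hn3 le_rfl V G ⟨hC, halpha, fun x => ?_, ?_, hcard, hdom⟩
  · by_contra hlt
    set Z := insert x (univ.filter (G.Adj x)) with hZ
    have hZc : #Z ≤ m - 1 := (card_insert_le _ _).trans (by omega)
    obtain ⟨I, hIZ, -, -, hd⟩ := hdom Z hZc
    obtain ⟨i, hi, hxi⟩ := hd x (mem_insert_self _ _)
    exact hIZ i hi (mem_insert_of_mem (mem_filter.2 ⟨mem_univ _, hxi⟩))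
  · -- connected
    obtain ⟨x⟩ : Nonempty V := Fintype.card_pos_iff.1 (by omega)
    refine (SimpleGraph.connected_iff_exists_forall_reachable G).2 ⟨x, fun y => ?_⟩
    by_contra hxy
    set S := univ.filter fun z => G.Reachable x z with hS
    set T := univ \ S with hT
    have hT0 : 0 < #T := card_pos.2 ⟨y, by simp [hT, hS, hxy]⟩
    have hS0 : 0 < #S := card_pos.2 ⟨x, by simp [hS]⟩
    have hsum : #S + #T = Fintype.card V := by
      rw [hT, card_univ_sdiff]
      have := card_le_univ S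
      omega
    -- split the budget
    have key : ∀ W : Finset V, 0 < #W → (#W - 1) / (m - 1) + 1 < n →
        ∃ I ⊆ W, (#W - 1) / (m - 1) + 1 ≤ #I ∧ ∀ a ∈ I, ∀ b ∈ I, ¬ G.Adj a b := fun W hW hlt =>
      (hsub _ W hlt (by
        have := Nat.mul_div_le (#W - 1) (m - 1)
        simp only [Nat.add_sub_cancel]
        omega)).resolve_left hC
    have hup : ∀ W : Finset V, #W ≤ (m - 1) * ((#W - 1) / (m - 1) + 1) := fun W => by
      have := Nat.lt_mul_div_succ (#W - 1) (show 0 < m - 1 by omega)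
      omega
    by_cases hbig : (#S - 1) / (m - 1) + 1 < n ∧ (#T - 1) / (m - 1) + 1 < n
    · obtain ⟨I, hIS, hIc, hIi⟩ := key S hS0 hbig.1
      obtain ⟨J, hJT, hJc, hJi⟩ := key T hT0 hbig.2
      have hdis : Disjoint I J := disjoint_left.2 fun a ha hb => (mem_sdiff.1 (hJT hb)).2 (hIS ha)
      have hcross : ∀ a ∈ I, ∀ b ∈ J, ¬ G.Adj a b := fun a ha b hb hab => by
        have h1 := hIS ha
        have h2 := (mem_sdiff.1 (hJT hb)).2
        simp only [hS, mem_filter, mem_univ, true_and] at h1 h2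
        exact h2 (h1.trans hab.reachable)
      have := halpha (I ∪ J) fun a ha b hb => by
        rcases mem_union.1 ha with ha | ha <;> rcases mem_union.1 hb with hb | hb
        · exact hIi a ha b hb
        · exact hcross a ha b hb
        · exact fun h => hcross b hb a ha h.symm
        · exact hJi a ha b hb
      rw [card_union_of_disjoint hdis] at this
      have h1 := hup S
      have h2 := hup T
      have h3 : (m - 1) * ((#S - 1) / (m - 1) + 1 + ((#T - 1) / (m - 1) + 1)) ≤
          (m - 1) * (n - 1) := Nat.mul_le_mul_left _ (by omega)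
      rw [Nat.mul_add (m - 1) ((#S - 1) / (m - 1) + 1)] at h3
      omega
    · -- one side alone is already too large
      rw [not_and_or, not_lt, not_lt] at hbig
      have hone : ∀ W : Finset V, n ≤ (#W - 1) / (m - 1) + 1 →
          ∃ I ⊆ W, n - 1 ≤ #I ∧ ∀ a ∈ I, ∀ b ∈ I, ¬ G.Adj a b := fun W hW =>
        (hsub (n - 1) W (by omega) (by
          have h1 := Nat.mul_le_mul_left (m - 1) (show n - 1 ≤ (#W - 1) / (m - 1) by omega)
          have := Nat.mul_div_le (#W - 1) (m - 1)
          omega)).resolve_left hC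
      have hfin : ∀ (W W' : Finset V), 0 < #W' → (∀ a ∈ W, ∀ b ∈ W', a ≠ b ∧ ¬ G.Adj a b) →
          n ≤ (#W - 1) / (m - 1) + 1 → False := by
        intro W W' hW' hsep hW
        obtain ⟨I, hIW, hIc, hIi⟩ := hone W hW
        obtain ⟨z, hz⟩ := card_pos.1 hW'
        have hzI : z ∉ I := fun h => (hsep z (hIW h) z hz).1 rfl
        have := halpha (insert z I) fun a ha b hb => by
          rcases mem_insert.1 ha with rfl | ha' <;> rcases mem_insert.1 hb with rfl | hb'
          · exact G.irrefl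
          · exact fun h => (hsep b (hIW hb') a hz).2 h.symm
          · exact (hsep a (hIW ha') b hz).2
          · exact hIi a ha' b hb'
        rw [card_insert_of_notMem hzI] at this
        omega
      have hsep : ∀ a ∈ S, ∀ b ∈ T, a ≠ b ∧ ¬ G.Adj a b := fun a ha b hb => by
        simp only [hT, hS, mem_sdiff, mem_filter, mem_univ, true_and] at ha hb
        exact ⟨fun h => hb (h ▸ ha), fun h => hb (ha.trans h.reachable)⟩
      rcases hbig with h | h
      · exact hfin S T hT0 hsep h
      · exact hfin T S hS0 (fun a ha b hb => ⟨(hsep b hb a ha).1.symm,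
          fun h' => (hsep b hb a ha).2 h'.symm⟩) h

/-- A minimal counterexample contains a cluster. -/
theorem Minimal.cluster [Fintype V] [DecidableEq V] {G : SimpleGraph V} [DecidableRel G.Adj]
    {m n : ℕ} (hG : Minimal G m n) (hn : 3 ≤ n) (hnm : 2 * n + 1 ≤ m) :
    ClusterOne G m n ∨ ClusterTwo G m n := by
  obtain ⟨B, A, d, w, hd1, hdn, hbq, hdeg, hconn, hcut, hbip, hAB, hA, hBA, hwB, hw, hX⟩ :=
    exists_layer_core hG.conn (n := n) (q := (m - 1) / 2) (by omega) hG.alpha
      (lt_of_le_of_lt (Nat.mul_le_mul_right _ (show 2 * ((m - 1) / 2) ≤ m - 1 by omega)) hG.card)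
  have hBne : B.Nonempty := hA.mono hAB
  rcases hd1.eq_or_lt with rfl | hd2
  · obtain ⟨l, hl, hlen⟩ := Dirac.exists_path hBne hconn hdeg
    by_cases hb : m - 1 ≤ #B
    · exfalso
      set l' := l.take (m - 1) with hl'
      have hlen' : l'.length = m - 1 := by rw [hl', List.length_take]; omega
      have hsub : List.Sublist l' l := List.take_sublist _ _
      have hne : l' ≠ [] := by intro h; simp [h] at hlen'; omega
      refine hG.noC ⟨w :: l', ⟨⟨List.nodup_cons.2 ⟨fun h => hwB (hl.2.1 _ (hsub.subset h)),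
        hl.1.sublist hsub⟩, fun x _ => mem_univ x, ?_⟩, by simp, ?_⟩, by simp [hlen']; omega⟩
      · rw [List.isChain_cons]
        refine ⟨fun y hy => hw rfl y (hl.2.1 _ (hsub.subset (List.mem_of_mem_head? hy))), ?_⟩
        exact hl.2.2.take _
      · rw [List.getLast_cons hne, List.head_cons]
        exact (hw rfl _ (hl.2.1 _ (hsub.subset (List.getLast_mem hne)))).symm
    · refine Or.inl ⟨insert w B, ?_, fun x hx => ?_, ?_, ?_⟩
      · rw [card_insert_of_notMem hwB]; omega
      · rcases mem_insert.1 hx with rfl | hxB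
        · refine le_trans hbq (card_le_card fun y hy => ?_)
          exact mem_filter.2 ⟨mem_insert_of_mem hy, hw rfl y hy⟩
        · refine le_trans ?_ (card_le_card (s := insert w (B.filter (G.Adj x))) ?_)
          · rw [card_insert_of_notMem (fun h => hwB (mem_filter.1 h).1)]
            exact Nat.succ_le_succ (hdeg x hxB)
          · intro y hy
            rcases mem_insert.1 hy with rfl | hy'
            · exact mem_filter.2 ⟨mem_insert_self _ _, (hw rfl x hxB).symm⟩
            · exact mem_filter.2 ⟨mem_insert_of_mem (mem_filter.1 hy').1, (mem_filter.1 hy').2⟩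
      · rw [card_insert_of_notMem hwB]; omega
      · rw [card_insert_of_notMem hwB]; omega
  · obtain ⟨c, hc, hclen⟩ := Dirac.exists_cycle hBne hconn hcut (q := (m - 1) / 2) (by omega) hdeg
    by_cases hL : m - 2 * d < c.length
    · exfalso
      obtain ⟨p, hne, hp, hplen, hpA, hpB⟩ := Cross.exists_path_cross hc
        (fun v hv => le_trans (by omega) (hdeg v (hc.1.2.1 v hv))) hconn hbip
        (show 1 ≤ m - 2 * d by omega) hL (· ∈ A)
        (by obtain ⟨a, ha⟩ := hA; exact ⟨a, hAB ha, ha⟩)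
        (by obtain ⟨b, hb⟩ := hBA; exact ⟨b, (mem_sdiff.1 hb).1, (mem_sdiff.1 hb).2⟩)
      obtain ⟨X, hXl, hXn, hXB, hXc, -⟩ := hX _ hpA _
        (mem_sdiff.2 ⟨hp.2.1 _ (List.getLast_mem hne), hpB⟩)
      have hXne : X ≠ [] := by intro h; simp [h] at hXl; omega
      rw [List.isChain_cons, List.isChain_append] at hXc
      obtain ⟨hhead, hXch, -, hlast⟩ := hXc
      refine hG.noC ⟨p ++ X.reverse, ⟨⟨List.nodup_append'.2 ⟨hp.1, List.nodup_reverse.2 hXn,
        fun x hx hx' => hXB x (List.mem_reverse.1 hx') (hp.2.1 x hx)⟩, fun x _ => mem_univ x, ?_⟩,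
        by simp [hne], ?_⟩, by simp [hplen, hXl]; omega⟩
      · rw [List.isChain_append]
        refine ⟨hp.2.2, ?_, fun x hx y hy => ?_⟩
        · rw [List.isChain_reverse]; exact hXch.imp fun a b h => h.symm
        · rw [List.head?_reverse] at hy
          rw [List.getLast?_eq_some_getLast hne, Option.mem_def, Option.some.injEq] at hx
          rw [← hx]
          exact (hlast y hy _ (by simp)).symm
      · rw [List.getLast_append_of_ne_nil _ (by simpa using hXne), List.getLast_reverse,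
          List.head_append_of_ne_nil hne]
        refine (hhead _ ?_).symm
        rw [List.head?_append_of_ne_nil _ hXne, List.head?_eq_some_head hXne]
        exact rfl
    · obtain ⟨a, ha⟩ := hA
      obtain ⟨b, hb⟩ := hBA
      obtain ⟨X, hXl, hXn, hXB, hXc, -⟩ := hX a ha b hb
      rw [mem_sdiff] at hb
      exact Or.inr ⟨B, a, b, X, d, hd2, hXl, hXn, hXB, hXc, hAB ha, hb.1,
        fun h => hb.2 (h ▸ ha), by omega, hdeg, hbq, by omega⟩

end Vale.Agent.P048.Assembly
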