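import Vale.Agent.P048.Assembly
import Vale.Agent.P048.Close.Links

/-!
The upper bound for P048 from the two cluster theorems of the closing step.
-/

namespace Vale.Agent.P048.Assembly

open Finset
open Close (HasCycle Closed)

variable {V : Type*}

/-- Any `n` vertices of a small set have two with a common neighbour outside it. -/
def PairDom (G : SimpleGraph V) (m n : ℕ) : Prop :=
  ∀ Z : Finset V, #Z + 1 ≤ m → ∀ U ⊆ Z, #U = n →
    ∃ x ∈ U, ∃ y ∈ U, x ≠ y ∧ ∃ w, w ∉ Z ∧ G.Adj x w ∧ G.Adj y w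

theorem hasCycle_of_hasC [Fintype V] {G : SimpleGraph V} {m : ℕ} (h : HasC G m) :
    HasCycle G m := by
  obtain ⟨l, ⟨⟨hnd, -, hch⟩, hne, hclose⟩, hlen⟩ := h
  refine ⟨l, hlen, hnd, hch, fun a ha b hb => ?_⟩
  rw [Option.mem_def, List.getLast?_eq_some_getLast hne, Option.some.injEq] at ha
  rw [Option.mem_def, List.head?_eq_some_head hne, Option.some.injEq] at hb
  rw [← ha, ← hb]
  exact hclose

theorem hasC_of_hasCycle [Fintype V] {G : SimpleGraph V} {m : ℕ} (hm : 1 ≤ m)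
    (h : HasCycle G m) : HasC G m := by
  obtain ⟨l, hlen, hnd, hch, hclose⟩ := h
  have hne : l ≠ [] := by intro h; simp [h] at hlen; omega
  exact ⟨l, ⟨⟨hnd, fun x _ => mem_univ x, hch⟩, hne,
    hclose _ (List.getLast?_eq_some_getLast hne) _ (List.head?_eq_some_head hne)⟩, hlen⟩

theorem Minimal.pairDom [Fintype V] [DecidableEq V] {G : SimpleGraph V} [DecidableRel G.Adj]
    {m n : ℕ} (hG : Minimal G m n) : PairDom G m n := by
  intro Z hZ U hU hUn
  obtain ⟨I, hIZ, hIi, -, hd⟩ := hG.dominate Z (by omega)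
  have hex : ∀ z ∈ U, ∃ i, i ∈ I ∧ G.Adj z i := fun z hz => hd z (hU hz)
  choose f hf using hex
  have hlt : #I < #U := hUn ▸ hG.alpha I hIi
  obtain ⟨x, -, y, -, hne, hxy⟩ :=
    exists_ne_map_eq_of_card_lt_of_maps_to (s := U.attach) (t := I)
      (f := fun z => f z.1 z.2) (by rwa [card_attach]) (fun z _ => (hf z.1 z.2).1)
  exact ⟨x.1, x.2, y.1, y.2, fun h => hne (Subtype.ext h), f x.1 x.2,
    hIZ _ (hf x.1 x.2).1, (hf x.1 x.2).2, hxy ▸ (hf y.1 y.2).2⟩

/-- The upper bound, given the closing step for the two cluster shapes. -/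
theorem upper_of_clusters {m : ℕ} (hm : 17 ≤ m)
    (h₁ : ∀ (U : Type) [Fintype U] [DecidableEq U] (G : SimpleGraph U) [DecidableRel G.Adj]
      (n : ℕ), 3 ≤ n → (∀ I : Finset U, G.IsIndepSet I → #I < n) → PairDom G m n →
      (∀ v, m - 1 ≤ G.degree v) → ∀ D : Finset U, #D + 1 ≤ m → n ≤ #D → m + 2 ≤ 2 * #D →
      (∀ v ∈ D, m ≤ 2 * #(D.filter (G.Adj v))) → 4 ≤ #D → HasCycle G m)
    (h₂ : ∀ (U : Type) [Fintype U] [DecidableEq U] (G : SimpleGraph U) [DecidableRel G.Adj]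
      (n : ℕ), 3 ≤ n → (∀ I : Finset U, G.IsIndepSet I → #I < n) → PairDom G m n →
      (∀ v, m - 1 ≤ G.degree v) → ∀ (D : Finset U) (a b : U), a ∈ D → b ∈ D → a ≠ b →
      ∀ X : List U, X.Nodup → (∀ x ∈ X, x ∉ D) → (a :: (X ++ [b])).IsChain G.Adj →
      3 ≤ X.length → #D + X.length + 1 ≤ m → n + 1 ≤ #D → m ≤ 2 * #D →
      (∀ v ∈ D, m ≤ 2 * #(D.filter (G.Adj v)) + 2) → 9 ≤ #D → HasCycle G m)
    {n : ℕ} (hnm : 2 * n + 1 ≤ m) (V : Type) [Fintype V] [DecidableEq V] (G : SimpleGraph V)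
    [DecidableRel G.Adj] (hcard : (m - 1) * (n - 1) + 1 ≤ Fintype.card V) :
    HasCycle G m ∨ ∃ s, G.IsNIndepSet n s := by
  classical
  have hno : ∀ k, 3 ≤ k → k ≤ n → ∀ (U : Type) [Fintype U] [DecidableEq U] (H : SimpleGraph U)
      [DecidableRel H.Adj], ¬ Minimal H m k := by
    intro k hk3 hkn U _ _ H _ hH
    have hα : ∀ I : Finset U, H.IsIndepSet I → #I < k := fun I hI =>
      hH.alpha I fun x hx y hy hxy => hI hx hy hxy.ne hxy
    have hdeg : ∀ v, m - 1 ≤ H.degree v := fun v => by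
      refine (hH.deg v).trans (le_of_eq ?_)
      rw [← SimpleGraph.card_neighborFinset_eq_degree]
      congr 1
      ext w
      simp
    refine hH.noC (hasC_of_hasCycle (by omega) ?_)
    rcases hH.cluster hk3 (by omega) with ⟨D, hD1, hD2, hD3, hD4⟩ |
      ⟨B, a, b, X, d, hd, hXl, hXn, hXB, hXc, ha, hb, hab, hB1, hB2, hB3, hB4⟩
    · exact h₁ U H k hk3 hα hH.pairDom hdeg D (by omega) hD4 (by omega)
        (fun v hv => by have := hD2 v hv; omega) (by omega)
    · exact h₂ U H k hk3 hα hH.pairDom hdeg B a b ha hb hab X hXn hXB hXc (by omega) (by omega)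
        hB4 (by omega) (fun v hv => by have := hB2 v hv; omega) (by omega)
  rcases hasC_or_hasI_of_no_minimal (by omega) n hno V G (by omega) with h | ⟨I, hI, hind⟩
  · exact Or.inl (hasCycle_of_hasC h)
  · obtain ⟨J, hJI, hJ⟩ := exists_subset_card_eq hI
    exact Or.inr ⟨J, fun x hx y hy _ => hind x (hJI hx) y (hJI hy), hJ⟩

end Vale.Agent.P048.Assembly
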