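import Mathlib

/-!
Dirac's theorems on long paths and cycles, in list form: a connected graph with minimum degree `q`
has a path on `min(2q+1, b)` vertices, and without a cut vertex a cycle on `min(2q, b)` vertices.
-/

namespace Vale.Agent.P048.Dirac

open Finset

variable {V : Type*} [DecidableEq V] (G : SimpleGraph V) (B : Finset V)

/-- Adjacency inside `B`, avoiding a set `X`. -/
def StepIn (X : Set V) (x y : V) : Prop :=
  G.Adj x y ∧ x ∈ B ∧ y ∈ B ∧ x ∉ X ∧ y ∉ X

/-- A simple path inside `B`. -/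
def PathIn (l : List V) : Prop := l.Nodup ∧ (∀ x ∈ l, x ∈ B) ∧ l.IsChain G.Adj

/-- A cycle inside `B`. -/
def CycleIn (l : List V) : Prop :=
  PathIn G B l ∧ ∃ h : l ≠ [], G.Adj (l.getLast h) (l.head h)

variable {G B}

omit [DecidableEq V] in
theorem PathIn.reverse {l : List V} (h : PathIn G B l) : PathIn G B l.reverse := by
  refine ⟨List.nodup_reverse.2 h.1, fun x hx => h.2.1 x (List.mem_reverse.1 hx), ?_⟩
  rw [List.isChain_reverse]
  exact h.2.2.imp fun a b hab => hab.symm

omit [DecidableEq V] in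
theorem PathIn.cons {l : List V} {x : V} (h : PathIn G B l) (hx : x ∈ B) (hxl : x ∉ l)
    (hadj : ∀ (hne : l ≠ []), G.Adj x (l.head hne)) : PathIn G B (x :: l) := by
  refine ⟨List.nodup_cons.2 ⟨hxl, h.1⟩, ?_, ?_⟩
  · simpa [hx] using h.2.1
  · cases l with
    | nil => simp
    | cons a t => exact List.isChain_cons_cons.2 ⟨hadj (by simp), h.2.2⟩

omit [DecidableEq V] in
theorem PathIn.append {l m : List V} (hl : PathIn G B l) (hm : PathIn G B m)
    (hd : ∀ x ∈ l, x ∉ m) (hadj : ∀ (h1 : l ≠ []) (h2 : m ≠ []), G.Adj (l.getLast h1) (m.head h2)) :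
    PathIn G B (l ++ m) := by
  refine ⟨List.nodup_append'.2 ⟨hl.1, hm.1, fun x hx hx' => hd x hx hx'⟩, ?_, ?_⟩
  · intro x hx
    rcases List.mem_append.1 hx with h | h
    · exact hl.2.1 x h
    · exact hm.2.1 x h
  · rw [List.isChain_append]
    refine ⟨hl.2.2, hm.2.2, fun x hx y hy => ?_⟩
    obtain ⟨h1, rfl⟩ : ∃ h : l ≠ [], l.getLast h = x := by
      rw [Option.mem_def, List.getLast?_eq_some_iff] at hx
      obtain ⟨ys, rfl⟩ := hx
      exact ⟨by simp, by simp⟩
    obtain ⟨h2, rfl⟩ : ∃ h : m ≠ [], m.head h = y := by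
      rw [Option.mem_def, List.head?_eq_some_iff] at hy
      obtain ⟨ys, rfl⟩ := hy
      exact ⟨by simp, by simp⟩
    exact hadj h1 h2

omit [DecidableEq V] in
theorem reach_symm {X : Set V} {x y : V} (h : Relation.ReflTransGen (StepIn G B X) x y) :
    Relation.ReflTransGen (StepIn G B X) y x := by
  induction h with
  | refl => exact .refl
  | tail _ hbc ih =>
    exact .head ⟨hbc.1.symm, hbc.2.2.1, hbc.2.1, hbc.2.2.2.2, hbc.2.2.2.1⟩ ih

/-- A chain of steps gives a simple path. -/
theorem exists_path_of_reach {X : Set V} {z w : V} (hz : z ∈ B) (hzX : z ∉ X)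
    (h : Relation.ReflTransGen (StepIn G B X) z w) :
    ∃ l : List V, PathIn G B l ∧ (∀ x ∈ l, x ∉ X ∧ Relation.ReflTransGen (StepIn G B X) x w) ∧
      ∃ hne : l ≠ [], l.head hne = z ∧ l.getLast hne = w := by
  induction h using Relation.ReflTransGen.head_induction_on with
  | refl => exact ⟨[w], ⟨by simp, by simpa, by simp⟩, by simp [hzX]; exact .refl, by simp⟩
  | @head a c hac hcw ih =>
    obtain ⟨l, hl, hlX, hne, hhead, hlast⟩ := ih hac.2.2.1 hac.2.2.2.2
    by_cases ha : a ∈ l
    · obtain ⟨s, t, rfl⟩ := List.mem_iff_append.1 ha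
      refine ⟨a :: t, ⟨hl.1.sublist (List.sublist_append_right _ _), fun x hx => hl.2.1 x
        (List.mem_append_right _ hx), (List.isChain_append.1 hl.2.2).2.1⟩,
        fun x hx => hlX x (List.mem_append_right _ hx), by simp, by simp, ?_⟩
      rw [← hlast, List.getLast_append_of_ne_nil _ (by simp)]
    · refine ⟨a :: l, hl.cons hz ha fun _ => by rw [hhead]; exact hac.1, ?_, by simp, by simp, ?_⟩
      · intro x hx
        rcases List.mem_cons.1 hx with rfl | hx
        · exact ⟨hzX, .head hac hcw⟩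
        · exact hlX x hx
      · rw [List.getLast_cons hne, hlast]

/-- A path of maximal length inside `B`. -/
theorem exists_longest (hB : B.Nonempty) :
    ∃ l : List V, PathIn G B l ∧ l ≠ [] ∧ ∀ m, PathIn G B m → m.length ≤ l.length := by
  classical
  let good : ℕ → Prop := fun n => ∃ l : List V, l.length = n ∧ PathIn G B l
  have hbd : ∀ n, good n → n ≤ #B := by
    rintro n ⟨l, rfl, hnd, hsub, -⟩
    rw [← List.toFinset_card_of_nodup hnd]
    exact card_le_card fun x hx => hsub x (List.mem_toFinset.1 hx)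
  obtain ⟨x, hx⟩ := hB
  have h1 : good 1 := ⟨[x], rfl, by simp, by simpa, by simp⟩
  obtain ⟨l, hl, hP⟩ : good (Nat.findGreatest good #B) := Nat.findGreatest_spec (hbd 1 h1) h1
  have hpos : 1 ≤ Nat.findGreatest good #B := Nat.le_findGreatest (hbd 1 h1) h1
  refine ⟨l, hP, fun h => by simp [h] at hl; omega, fun m hm => ?_⟩
  rw [hl]
  exact Nat.le_findGreatest (hbd _ ⟨m, rfl, hm⟩) ⟨m, rfl, hm⟩

/-- A spanning cycle of a longest path covers a connected `B`. -/
theorem covers_of_cycle {l c : List V}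
    (hconn : ∀ x ∈ B, ∀ y ∈ B, Relation.ReflTransGen (StepIn G B ∅) x y)
    (hmax : ∀ m, PathIn G B m → m.length ≤ l.length) (hc : CycleIn G B c)
    (hlen : c.length = l.length) : c.length = #B := by
  have hsub : c.toFinset ⊆ B := fun x hx => hc.1.2.1 x (List.mem_toFinset.1 hx)
  have hcard := List.toFinset_card_of_nodup hc.1.1
  obtain ⟨hne, hclose⟩ := hc.2
  by_contra hne'
  obtain ⟨y, hy, hyc⟩ : ∃ y ∈ B, y ∉ c := by
    by_contra hcon
    push Not at hcon
    have : #B ≤ #c.toFinset := card_le_card fun x hx => List.mem_toFinset.2 (hcon x hx)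
    have := card_le_card hsub
    omega
  -- an edge leaving the cycle
  have hout : ∀ z, Relation.ReflTransGen (StepIn G B ∅) (c.head hne) z → z ∉ c →
      ∃ a ∈ c, ∃ b ∈ B, b ∉ c ∧ G.Adj a b := by
    intro z hz
    induction hz with
    | refl => intro h; exact absurd (List.head_mem hne) h
    | @tail b d hab hbd ih =>
      intro hd
      by_cases hb : b ∈ c
      · exact ⟨b, hb, d, hbd.2.2.1, hd, hbd.1⟩
      · exact ih hb
  obtain ⟨a, ha, b, hb, hbc, hab⟩ :=
    hout y (hconn _ (hc.1.2.1 _ (List.head_mem hne)) y hy) hyc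
  obtain ⟨s, t, rfl⟩ := List.mem_iff_append.1 ha
  have hch := List.isChain_append.1 hc.1.2.2
  have hp : PathIn G B ((a :: t) ++ s) := by
    refine PathIn.append ⟨(hc.1.1.sublist (List.sublist_append_right _ _)),
      fun x hx => hc.1.2.1 x (List.mem_append_right _ hx), hch.2.1⟩
      ⟨(hc.1.1.sublist (List.sublist_append_left _ _)),
      fun x hx => hc.1.2.1 x (List.mem_append_left _ hx), hch.1⟩ ?_ ?_
    · intro x hx hx'
      exact (List.nodup_append'.1 hc.1.1).2.2 hx' hx
    · intro h1 h2
      rw [List.getLast_append_of_ne_nil _ (by simp), List.head_append_of_ne_nil h2] at hclose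
      exact hclose
  have h := hmax _ (hp.cons hb (x := b) (fun h => hbc ?_) (fun h => by simpa using hab.symm))
  · simp only [List.length_cons, List.length_append] at h hlen
    omega
  · simp only [List.mem_append, List.mem_cons] at h ⊢
    tauto

/-- Vertices off the path that are connected to `v` outside the path. -/
def OffReach (l : List V) (z v : V) : Prop :=
  z ∈ B ∧ z ∉ l ∧ ∃ w, w ∈ B ∧ w ∉ l ∧ G.Adj w v ∧
    Relation.ReflTransGen (StepIn G B {x | x ∈ l}) z w

/-- A jump between two path vertices. -/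
def Jump (l : List V) (u v : V) : Prop := G.Adj u v ∨ ∃ z, G.Adj u z ∧ OffReach (G := G) (B := B) l z v

theorem StepIn.symm {X : Set V} {x y : V} (h : StepIn G B X x y) : StepIn G B X y x :=
  ⟨h.1.symm, h.2.2.1, h.2.1, h.2.2.2.2, h.2.2.2.1⟩

/-- Every interior path vertex that is not a cut vertex is jumped over. -/
theorem exists_jump {l : List V} {g : ℕ → V} {n : ℕ} (hsurj : ∀ x ∈ l, ∃ i ≤ n, g i = x)
    {t : ℕ} (h0t : 0 < t) (htn : t < n) (hmem : ∀ i ≤ n, g i ∈ l) (hlB : ∀ x ∈ l, x ∈ B)
    (hinj : ∀ i j, i ≤ n → j ≤ n → g i = g j → i = j)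
    (hcut : Relation.ReflTransGen (StepIn G B {g t}) (g 0) (g n)) :
    ∃ a b, a < t ∧ t < b ∧ b ≤ n ∧ Jump (G := G) (B := B) l (g a) (g b) := by
  by_contra hcon
  push Not at hcon
  have key : ∀ z, Relation.ReflTransGen (StepIn G B {g t}) (g 0) z →
      (∃ a, a < t ∧ g a = z) ∨ (z ∈ B ∧ z ∉ l ∧ ∃ a z₀, a < t ∧ G.Adj (g a) z₀ ∧ z₀ ∈ B ∧ z₀ ∉ l ∧
        Relation.ReflTransGen (StepIn G B {x | x ∈ l}) z₀ z) := by
    intro z hz
    induction hz with
    | refl => exact Or.inl ⟨0, h0t, rfl⟩
    | @tail x y hx hxy ih =>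
      by_cases hy : y ∈ l
      · obtain ⟨b, hb, rfl⟩ := hsurj y hy
        have hbt : b ≠ t := fun h => hxy.2.2.2.2 (by rw [h]; rfl)
        rcases lt_or_gt_of_ne hbt with h | h
        · exact Or.inl ⟨b, h, rfl⟩
        rcases ih with ⟨a, ha, rfl⟩ | ⟨hxB, hxl, a, z₀, ha, had, hzB, hzl, hr⟩
        · exact absurd (Or.inl hxy.1) (hcon a b ha h hb)
        · exact absurd (Or.inr ⟨z₀, had, hzB, hzl, x, hxB, hxl, hxy.1, hr⟩) (hcon a b ha h hb)
      · right
        refine ⟨hxy.2.2.1, hy, ?_⟩
        rcases ih with ⟨a, ha, rfl⟩ | ⟨hxB, hxl, a, z₀, ha, had, hzB, hzl, hr⟩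
        · exact ⟨a, y, ha, hxy.1, hxy.2.2.1, hy, .refl⟩
        · exact ⟨a, z₀, ha, had, hzB, hzl, hr.tail ⟨hxy.1, hxB, hxy.2.2.1, hxl, hy⟩⟩
  rcases key _ hcut with ⟨a, ha, he⟩ | ⟨-, h, -⟩
  · have := hinj a n (by omega) le_rfl he
    omega
  · exact h (hmem n le_rfl)

/-- The segment of `g` from `i` to `j`. -/
def seg (g : ℕ → V) (i j : ℕ) : List V := (List.range' i (j + 1 - i)).map g

theorem seg_spec {g : ℕ → V} {n i j : ℕ} (hB : ∀ k ≤ n, g k ∈ B)
    (hinj : ∀ a b, a ≤ n → b ≤ n → g a = g b → a = b) (hadj : ∀ k < n, G.Adj (g k) (g (k + 1)))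
    (hij : i ≤ j) (hj : j ≤ n) :
    PathIn G B (seg g i j) ∧ (∀ x, x ∈ seg g i j ↔ ∃ k, i ≤ k ∧ k ≤ j ∧ g k = x) ∧
      ∃ h : seg g i j ≠ [], (seg g i j).head h = g i ∧ (seg g i j).getLast h = g j := by
  refine ⟨⟨?_, ?_, ?_⟩, fun x => ?_, ?_, ?_, ?_⟩
  · refine List.Nodup.map_on (fun a ha b hb h => ?_) List.nodup_range'
    simp only [List.mem_range'_1] at ha hb
    exact hinj a b (by omega) (by omega) h
  · intro x hx
    simp only [seg, List.mem_map, List.mem_range'_1] at hx
    obtain ⟨k, hk, rfl⟩ := hx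
    exact hB k (by omega)
  · rw [seg, List.isChain_map, List.isChain_iff_getElem]
    intro k hk
    simp only [List.length_range'] at hk
    simp only [List.getElem_range', one_mul]
    exact hadj (i + k) (by omega)
  · simp only [seg, List.mem_map, List.mem_range'_1]
    exact ⟨fun ⟨k, hk, e⟩ => ⟨k, hk.1, by omega, e⟩, fun ⟨k, h1, h2, e⟩ => ⟨k, ⟨h1, by omega⟩, e⟩⟩
  · simp [seg]; omega
  · simp [seg, List.head_map, List.head_range']
  · simp only [seg, List.getLast_map, List.getLast_range']
    congr 1; omega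

/-- The vine: extend a partial cycle by jumps until it passes `s`. -/
theorem vine {l : List V} {g : ℕ → V} {n q : ℕ} (s : ℕ) (Q : Finset V)
    (hsurj : ∀ x ∈ l, ∃ i ≤ n, g i = x) (hmem : ∀ i ≤ n, g i ∈ l) (hlB : ∀ x ∈ l, x ∈ B)
    (hinj : ∀ i j, i ≤ n → j ≤ n → g i = g j → i = j) (hadj : ∀ k < n, G.Adj (g k) (g (k + 1)))
    (hcut : ∀ t, 0 < t → t < n → Relation.ReflTransGen (StepIn G B {g t}) (g 0) (g n))
    (hsn : s < n) (hs : G.Adj (g s) (g n))
    (hQ : ∀ c : List V, (∀ x ∈ Q, x ∈ c) → (∀ t, s ≤ t → t ≤ n → G.Adj (g t) (g n) → g t ∈ c) →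
      g n ∈ c → c.Nodup → q ≤ c.length) :
    ∀ (k x y : ℕ) (L : List V), n ≤ y + k → x < y → y ≤ n → x ≤ s → PathIn G B L →
      (∃ h : L ≠ [], L.head h = g x ∧ L.getLast h = g y) → (∀ z ∈ Q, z ∈ L) →
      (∀ a < x, ∀ t ≤ n, y < t → ¬ Jump (G := G) (B := B) l (g a) (g t)) →
      (∀ z ∈ L, (∃ i, (i ≤ x ∨ i = y) ∧ i ≤ n ∧ g i = z) ∨
        (z ∉ l ∧ ∀ t ≤ n, OffReach (G := G) (B := B) l z (g t) → t ≤ y)) →
      ∃ c, CycleIn G B c ∧ q ≤ c.length := by
  intro k
  induction k using Nat.strong_induction_on with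
  | _ k ih =>
  intro x y L hk hxy hyn hxs hL hends hQL hfar hloc
  obtain ⟨hLne, hLh, hLl⟩ := hends
  by_cases hys : s < y
  · -- close the cycle
    classical
    obtain ⟨s', hs', hsmax⟩ : ∃ s', (s ≤ s' ∧ s' < y ∧ G.Adj (g s') (g n)) ∧
        ∀ t, s ≤ t → t < y → G.Adj (g t) (g n) → t ≤ s' := by
      set F := (range y).filter fun t => s ≤ t ∧ G.Adj (g t) (g n) with hF
      have hne : F.Nonempty := ⟨s, by simp [hF, hys, hs]⟩
      refine ⟨F.max' hne, ?_, fun t h1 h2 h3 => F.le_max' t (by simp [hF, h1, h2, h3])⟩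
      have := F.max'_mem hne
      simp only [hF, mem_filter, mem_range] at this
      exact ⟨this.2.1, this.1, this.2.2⟩
    have hB' : ∀ k ≤ n, g k ∈ B := fun k hk => hlB _ (hmem k hk)
    obtain ⟨h1, h1m, h1ne, h1h, h1l⟩ :=
      seg_spec (G := G) hB' hinj hadj (show x ≤ s' by omega) (show s' ≤ n by omega)
    obtain ⟨h2, h2m, h2ne, h2h, h2l⟩ := seg_spec (G := G) hB' hinj hadj hyn le_rfl
    -- L ++ (y+1 .. n) ++ reversed (x+1 .. s')
    set C1 := (seg g y n).tail with hC1
    set C2 := (seg g x s').tail with hC2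
    have hm1 : ∀ z ∈ C1, ∃ i, y < i ∧ i ≤ n ∧ g i = z := by
      intro z hz
      obtain ⟨i, hi1, hi2, rfl⟩ := (h2m z).1 (List.mem_of_mem_tail hz)
      refine ⟨i, lt_of_le_of_ne hi1 fun h => ?_, hi2, rfl⟩
      subst h
      have hnd := h2.1
      rw [← List.cons_head_tail h2ne, List.nodup_cons, h2h] at hnd
      exact hnd.1 hz
    have hm2 : ∀ z ∈ C2, ∃ i, x < i ∧ i ≤ s' ∧ g i = z := by
      intro z hz
      obtain ⟨i, hi1, hi2, rfl⟩ := (h1m z).1 (List.mem_of_mem_tail hz)
      refine ⟨i, lt_of_le_of_ne hi1 fun h => ?_, hi2, rfl⟩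
      subst h
      have hnd := h1.1
      rw [← List.cons_head_tail h1ne, List.nodup_cons, h1h] at hnd
      exact hnd.1 hz
    have hbig : PathIn G B (seg g y n ++ (seg g x s').reverse) := by
      refine h2.append h1.reverse ?_ ?_
      · intro z hz hz'
        obtain ⟨i, hi1, hi2, rfl⟩ := (h2m z).1 hz
        obtain ⟨j, hj1, hj2, hj⟩ := (h1m _).1 (List.mem_reverse.1 hz')
        have := hinj j i (by omega) hi2 hj
        omega
      · intro _ h3
        rw [h2l, List.head_reverse, h1l]
        exact hs'.2.2.symm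
    have hC12 : PathIn G B (C1 ++ C2.reverse) := by
      have hsub : List.Sublist (C1 ++ C2.reverse) (seg g y n ++ (seg g x s').reverse) :=
        (List.tail_sublist _).append (List.tail_sublist _).reverse
      refine ⟨hbig.1.sublist hsub, fun z hz => hbig.2.1 z (hsub.subset hz), ?_⟩
      have e : seg g y n ++ (seg g x s').reverse = g y :: (C1 ++ C2.reverse) ++ [g x] := by
        conv_lhs => rw [← List.cons_head_tail h2ne, ← List.cons_head_tail h1ne, h2h, h1h]
        simp [hC1, hC2]
      have := hbig.2.2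
      rw [e] at this
      exact (List.isChain_of_isChain_cons (List.isChain_append.1 this).1)
    have hall : seg g y n ++ (seg g x s').reverse = g y :: (C1 ++ C2.reverse) ++ [g x] := by
      conv_lhs => rw [← List.cons_head_tail h2ne, ← List.cons_head_tail h1ne, h2h, h1h]
      simp [hC1, hC2]
    have hchain := hbig.2.2
    rw [hall] at hchain
    refine ⟨L ++ (C1 ++ C2.reverse), ⟨hL.append hC12 ?_ ?_, by simp [hLne], ?_⟩, ?_⟩
    · intro z hz hz'
      rcases hloc z hz with ⟨i, hi, hin, rfl⟩ | ⟨hzl, -⟩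
      · rcases List.mem_append.1 hz' with h | h
        · obtain ⟨j, hj1, hj2, hj⟩ := hm1 _ h
          have := hinj j i hj2 hin hj
          omega
        · obtain ⟨j, hj1, hj2, hj⟩ := hm2 _ (List.mem_reverse.1 h)
          have := hinj j i (by omega) hin hj
          omega
      · rcases List.mem_append.1 hz' with h | h
        · obtain ⟨j, -, hj2, rfl⟩ := hm1 _ h; exact hzl (hmem j hj2)
        · obtain ⟨j, -, hj2, rfl⟩ := hm2 _ (List.mem_reverse.1 h); exact hzl (hmem j (by omega))
    · intro _ hne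
      rw [hLl]
      have h := (List.isChain_append.1 hchain).1
      rw [← List.cons_head_tail hne, List.isChain_cons_cons] at h
      exact h.1
    · by_cases hne : C1 ++ C2.reverse = []
      · have e : List.getLast (L ++ (C1 ++ C2.reverse)) (by simp [hLne]) = L.getLast hLne := by
          simp only [hne, List.append_nil]
        rw [e, List.head_append_of_ne_nil hLne, hLl, hLh]
        rw [hne] at hchain
        simpa using hchain
      · rw [List.getLast_append_of_ne_nil _ hne, List.head_append_of_ne_nil hLne, hLh]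
        exact (List.isChain_append.1 hchain).2.2 _
          (by rw [List.getLast?_cons_of_ne_nil hne, List.getLast?_eq_some_getLast hne]; rfl) _ (by simp)
    · have hge : ∀ i, y ≤ i → i ≤ n → g i ∈ L ++ (C1 ++ C2.reverse) := by
        intro i h1' h2'
        have := (h2m (g i)).2 ⟨i, h1', h2', rfl⟩
        rw [← List.cons_head_tail h2ne, List.mem_cons, h2h] at this
        rcases this with e | e
        · rw [e, ← hLl]; exact List.mem_append_left _ (List.getLast_mem hLne)
        · exact List.mem_append_right _ (List.mem_append_left _ e)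
      have hmid : ∀ i, x ≤ i → i ≤ s' → g i ∈ L ++ (C1 ++ C2.reverse) := by
        intro i h1' h2'
        have := (h1m (g i)).2 ⟨i, h1', h2', rfl⟩
        rw [← List.cons_head_tail h1ne, List.mem_cons, h1h] at this
        rcases this with e | e
        · rw [e, ← hLh]; exact List.mem_append_left _ (List.head_mem hLne)
        · exact List.mem_append_right _ (List.mem_append_right _ (List.mem_reverse.2 e))
      refine hQ _ (fun z hz => List.mem_append_left _ (hQL z hz)) (fun t ht htn hta => ?_)
        (hge n hyn le_rfl) ?_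
      · rcases lt_or_ge t y with h | h
        · exact hmid t (by omega) (hsmax t ht h hta)
        · exact hge t h htn
      · refine (hL.append hC12 ?_ ?_).1
        · intro z hz hz'
          rcases hloc z hz with ⟨i, hi, hin, rfl⟩ | ⟨hzl, -⟩
          · rcases List.mem_append.1 hz' with h | h
            · obtain ⟨j, hj1, hj2, hj⟩ := hm1 _ h
              have := hinj j i hj2 hin hj
              omega
            · obtain ⟨j, hj1, hj2, hj⟩ := hm2 _ (List.mem_reverse.1 h)
              have := hinj j i (by omega) hin hj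
              omega
          · rcases List.mem_append.1 hz' with h | h
            · obtain ⟨j, -, hj2, rfl⟩ := hm1 _ h; exact hzl (hmem j hj2)
            · obtain ⟨j, -, hj2, rfl⟩ := hm2 _ (List.mem_reverse.1 h); exact hzl (hmem j (by omega))
        · intro _ hne
          rw [hLl]
          have h := (List.isChain_append.1 hchain).1
          rw [← List.cons_head_tail hne, List.isChain_cons_cons] at h
          exact h.1
  · -- take the farthest jump over y
    classical
    obtain ⟨a₀, b₀, ha₀, hb₀, hb₀n, hj₀⟩ :=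
      exists_jump hsurj (show 0 < y by omega) (by omega) hmem hlB hinj (hcut y (by omega) (by omega))
    set F := (range (n + 1)).filter fun b => y < b ∧ ∃ a < y, Jump (G := G) (B := B) l (g a) (g b)
      with hF
    have hFne : F.Nonempty := ⟨b₀, by simp [hF]; exact ⟨by omega, hb₀, a₀, ha₀, hj₀⟩⟩
    set b := F.max' hFne with hb
    have hbF := F.max'_mem hFne
    rw [← hb] at hbF
    simp only [hF, mem_filter, mem_range] at hbF
    obtain ⟨hbn, hyb, a, hay, hjump⟩ := hbF
    have hbmax : ∀ t, t ≤ n → y < t → (∃ a < y, Jump (G := G) (B := B) l (g a) (g t)) → t ≤ b := by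
      intro t h1 h2 h3
      exact F.le_max' t (by simp [hF]; exact ⟨by omega, h2, h3⟩)
    have hxa : x ≤ a := by
      by_contra hcon
      exact hfar a (by omega) b (by omega) hyb hjump
    have hB' : ∀ k ≤ n, g k ∈ B := fun k hk => hlB _ (hmem k hk)
    obtain ⟨Z, hZ, hZoff, hZchain⟩ : ∃ Z : List V, PathIn G B Z ∧
        (∀ z ∈ Z, z ∉ l ∧ OffReach (G := G) (B := B) l z (g b) ∧
          ∀ t ≤ n, OffReach (G := G) (B := B) l z (g t) → t ≤ b) ∧
        List.IsChain G.Adj (g a :: Z ++ [g b]) := by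
      rcases hjump with h | ⟨z₀, haz, hz₀B, hz₀l, w, hwB, hwl, hwb, hr⟩
      · exact ⟨[], ⟨by simp, by simp, by simp⟩, by simp, by simp [h]⟩
      obtain ⟨Z, hZ, hZX, hne, hh, hlast⟩ := exists_path_of_reach (X := {x | x ∈ l}) hz₀B hz₀l hr
      have hfrom : ∀ z ∈ Z, Relation.ReflTransGen (StepIn G B {x | x ∈ l}) z₀ z := by
        intro z hz
        obtain ⟨s', t', rfl⟩ := List.mem_iff_append.1 hz
        have hc := hZ.2.2
        have hgen : ∀ (Y : List V) (u : V), List.IsChain G.Adj (u :: Y) →
            (∀ v ∈ u :: Y, v ∈ B ∧ v ∉ l) → ∀ v ∈ u :: Y,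
            Relation.ReflTransGen (StepIn G B {x | x ∈ l}) u v := by
          intro Y
          induction Y with
          | nil => intro u _ _ v hv; simp at hv; subst hv; exact .refl
          | cons a Y ihY =>
            intro u hch hgood v hv
            rcases List.mem_cons.1 hv with rfl | hv
            · exact .refl
            · rw [List.isChain_cons_cons] at hch
              exact .head ⟨hch.1, (hgood u (by simp)).1, (hgood a (by simp)).1,
                (hgood u (by simp)).2, (hgood a (by simp)).2⟩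
                (ihY a hch.2 (fun v hv => hgood v (List.mem_cons_of_mem _ hv)) v hv)
        rw [← List.cons_head_tail hne, hh] at hc hZX hz
        exact hgen _ _ hc (fun v hv => ⟨hZ.2.1 v (by rw [← List.cons_head_tail hne, hh]; exact hv),
          (hZX v hv).1⟩) z hz
      refine ⟨Z, hZ, fun z hz => ⟨(hZX z hz).1, ?_, fun t ht ⟨_, _, w', hw'B, hw'l, hw't, hr'⟩ => ?_⟩, ?_⟩
      · exact ⟨hZ.2.1 z hz, (hZX z hz).1, w, hwB, hwl, hwb, (hZX z hz).2⟩
      · by_contra hlt
        have := hbmax t ht (by omega)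
          ⟨a, hay, Or.inr ⟨z₀, haz, hz₀B, hz₀l, w', hw'B, hw'l, hw't, (hfrom z hz).trans hr'⟩⟩
        omega
      · rw [List.cons_append, ← List.cons_head_tail hne, List.cons_append, List.isChain_cons_cons, hh]
        refine ⟨haz, ?_⟩
        rw [← List.cons_append, List.isChain_append]
        refine ⟨?_, List.isChain_singleton _, ?_⟩
        · rw [← hh, List.cons_head_tail hne]; exact hZ.2.2
        · intro u hu v hv
          rw [← hh, List.cons_head_tail hne, List.getLast?_eq_some_getLast hne, Option.mem_def,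
            Option.some.injEq] at hu
          simp only [List.head?_cons, Option.mem_def, Option.some.injEq] at hv
          rw [← hu, ← hv, hlast]
          exact hwb
    obtain ⟨h1, h1m, h1ne, h1h, h1l⟩ :=
      seg_spec (G := G) hB' hinj hadj hxa (show a ≤ n by omega)
    set C := (seg g x a).tail with hC
    have hm1 : ∀ z ∈ C, ∃ i, x < i ∧ i ≤ a ∧ g i = z := by
      intro z hz
      obtain ⟨i, hi1, hi2, rfl⟩ := (h1m z).1 (List.mem_of_mem_tail hz)
      refine ⟨i, lt_of_le_of_ne hi1 fun h => ?_, hi2, rfl⟩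
      subst h
      have hnd := h1.1
      rw [← List.cons_head_tail h1ne, List.nodup_cons, h1h] at hnd
      exact hnd.1 hz
    have hsegC : seg g x a = g x :: C := by rw [← h1h, hC, List.cons_head_tail h1ne]
    have hone : PathIn G B [g b] := ⟨by simp, by simpa using hB' b (by omega), by simp⟩
    have hadd : PathIn G B (seg g x a ++ (Z ++ [g b])) := by
      refine h1.append (hZ.append hone ?_ ?_) ?_ ?_
      · intro z hz hz'
        rw [List.mem_singleton] at hz'
        exact (hZoff z hz).1 (hz' ▸ hmem b (by omega))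
      · intro h3 _
        have h := (List.isChain_append.1 hZchain).2.2 _
          (by rw [List.getLast?_cons_of_ne_nil h3, List.getLast?_eq_some_getLast h3]; rfl) (g b) (by simp)
        simpa using h
      · intro z hz hz'
        obtain ⟨i, hi1, hi2, rfl⟩ := (h1m z).1 hz
        rcases List.mem_append.1 hz' with h | h
        · exact (hZoff _ h).1 (hmem i (by omega))
        · rw [List.mem_singleton] at h
          have := hinj i b (by omega) (by omega) h
          omega
      · intro _ h3
        rw [h1l]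
        have h := hZchain
        rw [List.cons_append, ← List.cons_head_tail h3, List.isChain_cons_cons] at h
        exact h.1
    have hnew : PathIn G B (L.reverse ++ (C ++ (Z ++ [g b]))) := by
      have hsub : PathIn G B (C ++ (Z ++ [g b])) := by
        rw [hsegC, List.cons_append] at hadd
        exact ⟨(List.nodup_cons.1 hadd.1).2, fun z hz => hadd.2.1 z (List.mem_cons_of_mem _ hz),
          List.isChain_of_isChain_cons hadd.2.2⟩
      refine hL.reverse.append hsub ?_ ?_
      · intro z hz hz'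
        rw [List.mem_reverse] at hz
        rcases hloc z hz with ⟨i, hi, hin, rfl⟩ | ⟨hzl, hzreach⟩
        · rcases List.mem_append.1 hz' with h | h
          · obtain ⟨j, hj1, hj2, hj⟩ := hm1 _ h
            have := hinj j i (by omega) hin hj
            omega
          · rcases List.mem_append.1 h with h | h
            · exact (hZoff _ h).1 (hmem i hin)
            · rw [List.mem_singleton] at h
              have := hinj i b hin (by omega) h
              omega
        · rcases List.mem_append.1 hz' with h | h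
          · obtain ⟨j, -, hj2, rfl⟩ := hm1 _ h; exact hzl (hmem j (by omega))
          · rcases List.mem_append.1 h with h | h
            · have := hzreach b (by omega) (hZoff _ h).2.1
              omega
            · rw [List.mem_singleton] at h
              exact hzl (h ▸ hmem b (by omega))
      · intro _ h3
        rw [List.getLast_reverse, hLh]
        have h := hadd.2.2
        rw [hsegC, List.cons_append, ← List.cons_head_tail h3, List.isChain_cons_cons] at h
        exact h.1
    have hLrev : L.reverse ≠ [] := by simpa using hLne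
    refine ih (n - b) (by omega) y b (L.reverse ++ (C ++ (Z ++ [g b]))) (by omega) hyb (by omega)
      (by omega) hnew ⟨by simp, ?_, ?_⟩ (fun z hz => by simp [hQL z hz])
      (fun a' ha' t ht htb hJ => ?_) ?_
    · rw [List.head_append_of_ne_nil hLrev, List.head_reverse, hLl]
    · simp
    · have := hbmax t ht (by omega) ⟨a', ha', hJ⟩
      omega
    · intro z hz
      rcases List.mem_append.1 hz with h | h
      · rw [List.mem_reverse] at h
        rcases hloc z h with ⟨i, hi, hin, rfl⟩ | ⟨hzl, hzr⟩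
        · exact Or.inl ⟨i, Or.inl (by omega), hin, rfl⟩
        · exact Or.inr ⟨hzl, fun t ht hr => (hzr t ht hr).trans hyb.le⟩
      rcases List.mem_append.1 h with h | h
      · obtain ⟨j, hj1, hj2, rfl⟩ := hm1 _ h
        exact Or.inl ⟨j, Or.inl (by omega), by omega, rfl⟩
      rcases List.mem_append.1 h with h | h
      · exact Or.inr ⟨(hZoff z h).1, (hZoff z h).2.2⟩
      · rw [List.mem_singleton] at h
        exact Or.inl ⟨b, Or.inr rfl, by omega, h.symm⟩

/-- Dirac: connected with minimum degree `q` gives a path on `min(2q+1, b)` vertices. -/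
theorem exists_path [DecidableRel G.Adj] (hB : B.Nonempty)
    (hconn : ∀ x ∈ B, ∀ y ∈ B, Relation.ReflTransGen (StepIn G B ∅) x y) {q : ℕ}
    (hq : ∀ x ∈ B, q ≤ #(B.filter (G.Adj x))) :
    ∃ l, PathIn G B l ∧ min (2 * q + 1) #B ≤ l.length := by
  classical
  obtain ⟨l, hl, hne, hmax⟩ := exists_longest (G := G) hB
  refine ⟨l, hl, ?_⟩
  by_contra hlt
  rw [not_le, lt_min_iff] at hlt
  obtain ⟨n, hn⟩ : ∃ n, l.length = n + 1 := ⟨l.length - 1, by
    have := List.length_pos_iff.2 hne; omega⟩
  rcases Nat.eq_zero_or_pos n with hn0 | hn0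
  · -- a single vertex with no neighbour
    obtain ⟨a, rfl⟩ := List.length_eq_one_iff.1 (show l.length = 1 by omega)
    have ha : a ∈ B := hl.2.1 a (by simp)
    by_cases hq0 : q = 0
    · simp [hq0] at hlt
    have := hq a ha
    obtain ⟨x, hx⟩ := card_pos.1 (show 0 < #(B.filter (G.Adj a)) by omega)
    rw [mem_filter] at hx
    have := hmax [x, a] ((hl.cons hx.1 (by simpa using hx.2.ne') (fun _ => by simpa using hx.2.symm)))
    simp at this
  let g : ℕ → V := fun i => l.getD i (l.head hne)
  have hg : ∀ i, (h : i ≤ n) → g i = l[i]'(by omega) := fun i h =>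
    List.getD_eq_getElem _ _ (by omega)
  have hmem : ∀ i ≤ n, g i ∈ l := fun i h => by rw [hg i h]; exact List.getElem_mem _
  have hB' : ∀ i ≤ n, g i ∈ B := fun i h => hl.2.1 _ (hmem i h)
  have hinj : ∀ i j, i ≤ n → j ≤ n → g i = g j → i = j := fun i j hi hj h => by
    rw [hg i hi, hg j hj] at h
    exact (List.Nodup.getElem_inj_iff hl.1).1 h
  have hadj : ∀ k < n, G.Adj (g k) (g (k + 1)) := fun k hk => by
    rw [hg k (by omega), hg (k + 1) (by omega)]
    exact List.isChain_iff_getElem.1 hl.2.2 k (by omega)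
  have hsurj : ∀ x ∈ l, ∃ i ≤ n, g i = x := fun x hx => by
    obtain ⟨i, hi, rfl⟩ := List.getElem_of_mem hx
    exact ⟨i, by omega, hg i (by omega)⟩
  have hends : ∀ e x, (e = g 0 ∨ e = g n) → x ∈ B → G.Adj e x → x ∈ l := by
    intro e x he hx hex
    by_contra hxl
    rcases he with rfl | rfl
    · have h := hmax _ (hl.cons hx hxl fun h => by
        rw [hg 0 (by omega)] at hex
        rw [List.head_eq_getElem]; exact hex.symm)
      simp at h
    · have h := hmax _ (hl.reverse.cons hx (by simpa using hxl) fun h => by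
        rw [hg n le_rfl] at hex
        rw [List.head_reverse, List.getLast_eq_getElem]
        simp only [hn, Nat.add_sub_cancel]; exact hex.symm)
      simp at h
  set S := (range n).filter fun t => G.Adj (g 0) (g (t + 1)) with hS
  set T := (range n).filter fun t => G.Adj (g n) (g t) with hT
  have hSc : q ≤ #S := by
    refine (hq _ (hB' 0 (by omega))).trans (card_le_card_of_surjOn (fun t => g (t + 1)) ?_)
    intro x hx
    rw [mem_coe, mem_filter] at hx
    obtain ⟨i, hi, rfl⟩ := hsurj x (hends _ x (Or.inl rfl) hx.1 hx.2)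
    have : i ≠ 0 := fun h => by rw [h] at hx; exact G.irrefl hx.2
    refine ⟨i - 1, ?_, ?_⟩
    · rw [mem_coe, hS, mem_filter, mem_range, show i - 1 + 1 = i by omega]
      exact ⟨by omega, hx.2⟩
    · simp only [show i - 1 + 1 = i by omega]
  have hTc : q ≤ #T := by
    refine (hq _ (hB' n le_rfl)).trans (card_le_card_of_surjOn g ?_)
    intro x hx
    rw [mem_coe, mem_filter] at hx
    obtain ⟨i, hi, rfl⟩ := hsurj x (hends _ x (Or.inr rfl) hx.1 hx.2)
    have : i ≠ n := fun h => by rw [h] at hx; exact G.irrefl hx.2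
    exact ⟨i, by rw [mem_coe, hT, mem_filter, mem_range]; exact ⟨by omega, hx.2⟩, rfl⟩
  obtain ⟨i, hi⟩ : (S ∩ T).Nonempty := by
    rw [← card_pos]
    have := card_union_add_card_inter S T
    have : #(S ∪ T) ≤ n := (card_le_card (union_subset (filter_subset _ _) (filter_subset _ _))).trans
      (card_range n).le
    omega
  rw [mem_inter, hS, hT, mem_filter, mem_filter, mem_range] at hi
  obtain ⟨h1, h1m, h1ne, h1h, h1l⟩ := seg_spec (G := G) hB' hinj hadj (Nat.zero_le i) (by omega)
  obtain ⟨h2, h2m, h2ne, h2h, h2l⟩ :=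
    seg_spec (G := G) hB' hinj hadj (show i + 1 ≤ n by omega) le_rfl
  have hc : CycleIn G B (seg g 0 i ++ (seg g (i + 1) n).reverse) := by
    refine ⟨h1.append h2.reverse ?_ ?_, by simp [h1ne], ?_⟩
    · intro z hz hz'
      obtain ⟨a, ha1, ha2, rfl⟩ := (h1m z).1 hz
      obtain ⟨b, hb1, hb2, hb⟩ := (h2m _).1 (List.mem_reverse.1 hz')
      have := hinj b a hb2 (by omega) hb
      omega
    · intro _ _
      rw [h1l, List.head_reverse, h2l]; exact hi.2.2.symm
    · rw [List.getLast_append_of_ne_nil _ (by simpa using h2ne), List.getLast_reverse, h2h,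
        List.head_append_of_ne_nil h1ne, h1h]
      exact hi.1.2.symm
  have := covers_of_cycle hconn hmax hc (by simp [seg]; omega)
  simp [seg] at this
  omega

/-- Dirac: minimum degree `q` and no cut vertex give a cycle on `min(2q, b)` vertices. -/
theorem exists_cycle [DecidableRel G.Adj] (hB : B.Nonempty)
    (hconn : ∀ x ∈ B, ∀ y ∈ B, Relation.ReflTransGen (StepIn G B ∅) x y)
    (hcut : ∀ t ∈ B, ∀ x ∈ B, ∀ y ∈ B, x ≠ t → y ≠ t →
      Relation.ReflTransGen (StepIn G B {t}) x y) {q : ℕ} (hq2 : 2 ≤ q)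
    (hq : ∀ x ∈ B, q ≤ #(B.filter (G.Adj x))) :
    ∃ c, CycleIn G B c ∧ min (2 * q) #B ≤ c.length := by
  classical
  obtain ⟨l, hl, hne, hmax⟩ := exists_longest (G := G) hB
  obtain ⟨n, hn⟩ : ∃ n, l.length = n + 1 := ⟨l.length - 1, by
    have := List.length_pos_iff.2 hne; omega⟩
  let g : ℕ → V := fun i => l.getD i (l.head hne)
  have hg : ∀ i, (h : i ≤ n) → g i = l[i]'(by omega) := fun i h =>
    List.getD_eq_getElem _ _ (by omega)
  have hmem : ∀ i ≤ n, g i ∈ l := fun i h => by rw [hg i h]; exact List.getElem_mem _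
  have hB' : ∀ i ≤ n, g i ∈ B := fun i h => hl.2.1 _ (hmem i h)
  have hinj : ∀ i j, i ≤ n → j ≤ n → g i = g j → i = j := fun i j hi hj h => by
    rw [hg i hi, hg j hj] at h
    exact (List.Nodup.getElem_inj_iff hl.1).1 h
  have hadj : ∀ k < n, G.Adj (g k) (g (k + 1)) := fun k hk => by
    rw [hg k (by omega), hg (k + 1) (by omega)]
    exact List.isChain_iff_getElem.1 hl.2.2 k (by omega)
  have hsurj : ∀ x ∈ l, ∃ i ≤ n, g i = x := fun x hx => by
    obtain ⟨i, hi, rfl⟩ := List.getElem_of_mem hx
    exact ⟨i, by omega, hg i (by omega)⟩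
  have hends : ∀ e x, (e = g 0 ∨ e = g n) → x ∈ B → G.Adj e x → x ∈ l := by
    intro e x he hx hex
    by_contra hxl
    rcases he with rfl | rfl
    · have h := hmax _ (hl.cons hx hxl fun h => by
        rw [hg 0 (by omega)] at hex
        rw [List.head_eq_getElem]; exact hex.symm)
      simp at h
    · have h := hmax _ (hl.reverse.cons hx (by simpa using hxl) fun h => by
        rw [hg n le_rfl] at hex
        rw [List.head_reverse, List.getLast_eq_getElem]
        simp only [hn, Nat.add_sub_cancel]; exact hex.symm)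
      simp at h
  set N0 := B.filter (G.Adj (g 0)) with hN0
  set N1 := B.filter (G.Adj (g n)) with hN1
  have hq0 : q ≤ #N0 := hq _ (hB' 0 (by omega))
  have hq1 : q ≤ #N1 := hq _ (hB' n le_rfl)
  have hidx : ∀ x ∈ N0, ∃ i, 1 ≤ i ∧ i ≤ n ∧ g i = x ∧ G.Adj (g 0) (g i) := by
    intro x hx
    rw [hN0, mem_filter] at hx
    obtain ⟨i, hi, rfl⟩ := hsurj x (hends _ x (Or.inl rfl) hx.1 hx.2)
    exact ⟨i, Nat.one_le_iff_ne_zero.2 fun h => by rw [h] at hx; exact G.irrefl hx.2, hi, rfl, hx.2⟩
  have hidx1 : ∀ x ∈ N1, ∃ i, i < n ∧ g i = x ∧ G.Adj (g i) (g n) := by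
    intro x hx
    rw [hN1, mem_filter] at hx
    obtain ⟨i, hi, rfl⟩ := hsurj x (hends _ x (Or.inr rfl) hx.1 hx.2)
    exact ⟨i, lt_of_le_of_ne hi fun h => by rw [h] at hx; exact G.irrefl hx.2, rfl, hx.2.symm⟩
  have hn2 : 1 ≤ n := by
    obtain ⟨x, hx⟩ := card_pos.1 (show 0 < #N0 by omega)
    obtain ⟨i, h1, h2, -⟩ := hidx x hx
    omega
  by_cases hham : ∃ i < n, G.Adj (g 0) (g (i + 1)) ∧ G.Adj (g i) (g n)
  · obtain ⟨i, hin, hi1, hi2⟩ := hham
    obtain ⟨h1, h1m, h1ne, h1h, h1l⟩ := seg_spec (G := G) hB' hinj hadj (Nat.zero_le i) (by omega)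
    obtain ⟨h2, h2m, h2ne, h2h, h2l⟩ :=
      seg_spec (G := G) hB' hinj hadj (show i + 1 ≤ n by omega) le_rfl
    have hc : CycleIn G B (seg g 0 i ++ (seg g (i + 1) n).reverse) := by
      refine ⟨h1.append h2.reverse ?_ ?_, by simp [h1ne], ?_⟩
      · intro z hz hz'
        obtain ⟨a, ha1, ha2, rfl⟩ := (h1m z).1 hz
        obtain ⟨b, hb1, hb2, hb⟩ := (h2m _).1 (List.mem_reverse.1 hz')
        have := hinj b a hb2 (by omega) hb
        omega
      · intro _ _
        rw [h1l, List.head_reverse, h2l]; exact hi2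
      · rw [List.getLast_append_of_ne_nil _ (by simpa using h2ne), List.getLast_reverse, h2h,
          List.head_append_of_ne_nil h1ne, h1h]
        exact hi1.symm
    refine ⟨_, hc, ?_⟩
    rw [covers_of_cycle hconn hmax hc (by simp [seg]; omega)]
    exact min_le_right _ _
  push Not at hham
  by_cases hcross : ∃ i j, i < j ∧ j ≤ n ∧ G.Adj (g 0) (g j) ∧ G.Adj (g i) (g n)
  · -- crossing chords: take the closest pair
    obtain ⟨i₀, j₀, hij₀⟩ := hcross
    let D : ℕ → Prop := fun d =>
      ∃ i, i + d ≤ n ∧ 0 < d ∧ G.Adj (g 0) (g (i + d)) ∧ G.Adj (g i) (g n)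
    have hD : ∃ d, D d := ⟨j₀ - i₀, i₀, by omega, by omega,
      by rw [show i₀ + (j₀ - i₀) = j₀ by omega]; exact hij₀.2.2.1, hij₀.2.2.2⟩
    obtain ⟨i, hjn, hd0, ha0, ha1⟩ := Nat.find_spec hD
    set j := i + Nat.find hD with hj
    have hmin : ∀ i' j', i' < j' → j' ≤ n → G.Adj (g 0) (g j') → G.Adj (g i') (g n) →
        Nat.find hD ≤ j' - i' := fun i' j' h1 h2 h3 h4 =>
      Nat.find_min' hD ⟨i', by omega, by omega,
        by rw [show i' + (j' - i') = j' by omega]; exact h3, h4⟩
    obtain ⟨h1, h1m, h1ne, h1h, h1l⟩ := seg_spec (G := G) hB' hinj hadj (Nat.zero_le i) (by omega)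
    obtain ⟨h2, h2m, h2ne, h2h, h2l⟩ := seg_spec (G := G) hB' hinj hadj hjn le_rfl
    have hc : CycleIn G B (seg g 0 i ++ (seg g j n).reverse) := by
      refine ⟨h1.append h2.reverse ?_ ?_, by simp [h1ne], ?_⟩
      · intro z hz hz'
        obtain ⟨a, ha1, ha2, rfl⟩ := (h1m z).1 hz
        obtain ⟨b, hb1, hb2, hb⟩ := (h2m _).1 (List.mem_reverse.1 hz')
        have := hinj b a hb2 (by omega) hb
        omega
      · intro _ _
        rw [h1l, List.head_reverse, h2l]; exact ha1
      · rw [List.getLast_append_of_ne_nil _ (by simpa using h2ne), List.getLast_reverse, h2h,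
          List.head_append_of_ne_nil h1ne, h1h]
        exact ha0.symm
    refine ⟨_, hc, (min_le_left _ _).trans ?_⟩
    set S := (range n).filter fun t => G.Adj (g 0) (g (t + 1)) with hS
    set T := (range n).filter fun t => G.Adj (g t) (g n) with hT
    have hSc : #N0 ≤ #S := by
      refine card_le_card_of_surjOn (fun t => g (t + 1)) ?_
      intro x hx
      obtain ⟨a, h1, h2, rfl, h4⟩ := hidx x hx
      refine ⟨a - 1, ?_, ?_⟩
      · rw [mem_coe, hS, mem_filter, mem_range, show a - 1 + 1 = a by omega]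
        exact ⟨by omega, h4⟩
      · simp only [show a - 1 + 1 = a by omega]
    have hTc : #N1 ≤ #T := by
      refine card_le_card_of_surjOn g ?_
      intro x hx
      obtain ⟨a, h1, rfl, h3⟩ := hidx1 x hx
      exact ⟨a, by rw [mem_coe, hT, mem_filter, mem_range]; exact ⟨h1, h3⟩, rfl⟩
    have hdisj : Disjoint S T := disjoint_left.2 fun t hts htt => by
      rw [hS, mem_filter, mem_range] at hts
      rw [hT, mem_filter] at htt
      exact hham t hts.1 hts.2 htt.2
    have hsub : S ∪ T ⊆ range (i + 1) ∪ Ico (j - 1) n := by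
      intro t ht
      rw [mem_union, mem_range, mem_Ico]
      rcases mem_union.1 ht with h | h
      · rw [hS, mem_filter, mem_range] at h
        by_contra hcon
        have := hmin i (t + 1) (by omega) (by omega) h.2 ha1
        omega
      · rw [hT, mem_filter, mem_range] at h
        by_contra hcon
        have := hmin t j (by omega) hjn ha0 h.2
        omega
    have := (card_le_card hsub).trans (card_union_le _ _)
    rw [card_union_of_disjoint hdisj, card_range, Nat.card_Ico] at this
    simp [seg]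
    omega
  push Not at hcross
  -- no crossing: a vine
  obtain ⟨p, hp, hpmax⟩ : ∃ p, (1 ≤ p ∧ p ≤ n ∧ G.Adj (g 0) (g p)) ∧
      ∀ t, t ≤ n → G.Adj (g 0) (g t) → t ≤ p := by
    set F := (range (n + 1)).filter fun t => G.Adj (g 0) (g t) with hF
    have h1 : G.Adj (g 0) (g 1) := hadj 0 (by omega)
    have hne : F.Nonempty := ⟨1, by simp [hF, h1]; omega⟩
    refine ⟨F.max' hne, ⟨F.le_max' 1 (by simp [hF, h1]; omega), ?_⟩,
      fun t h2 h3 => F.le_max' t (by simp [hF, h3]; omega)⟩
    have := mem_filter.1 (F.max'_mem hne)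
    exact ⟨Nat.lt_succ_iff.1 (mem_range.1 this.1), this.2⟩
  obtain ⟨s, hs, hsmin⟩ : ∃ s, (s < n ∧ G.Adj (g s) (g n)) ∧
      ∀ t, t < n → G.Adj (g t) (g n) → s ≤ t := by
    have h1 : n - 1 < n ∧ G.Adj (g (n - 1)) (g n) := by
      refine ⟨by omega, ?_⟩
      have := hadj (n - 1) (by omega)
      rwa [show n - 1 + 1 = n by omega] at this
    have hex : ∃ t, t < n ∧ G.Adj (g t) (g n) := ⟨_, h1⟩
    exact ⟨Nat.find hex, Nat.find_spec hex, fun t h2 h3 => Nat.find_min' hex ⟨h2, h3⟩⟩
  have hps : p ≤ s := by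
    by_contra hcon
    exact hcross s p (by omega) hp.2.1 hp.2.2 hs.2
  have hcut' : ∀ t, 0 < t → t < n → Relation.ReflTransGen (StepIn G B {g t}) (g 0) (g n) :=
    fun t h1 h2 => hcut _ (hB' t h2.le) _ (hB' 0 (by omega)) _ (hB' n le_rfl)
      (fun h => by have := hinj 0 t (by omega) h2.le h; omega)
      (fun h => by have := hinj n t le_rfl h2.le h; omega)
  obtain ⟨a₀, b₀, ha₀, hb₀, hb₀n, hj₀⟩ :=
    exists_jump hsurj (show 0 < p by omega) (by omega) hmem hl.2.1 hinj (hcut' p (by omega) (by omega))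
  set F := (range (n + 1)).filter fun b => p < b ∧ ∃ a < p, Jump (G := G) (B := B) l (g a) (g b)
    with hF
  have hFne : F.Nonempty := ⟨b₀, by simp [hF]; exact ⟨by omega, hb₀, a₀, ha₀, hj₀⟩⟩
  set b := F.max' hFne with hb
  have hbF := F.max'_mem hFne
  rw [← hb] at hbF
  simp only [hF, mem_filter, mem_range] at hbF
  obtain ⟨hbn, hpb, a, hap, hjump⟩ := hbF
  have hbmax : ∀ t, t ≤ n → p < t → (∃ a < p, Jump (G := G) (B := B) l (g a) (g t)) → t ≤ b := by
    intro t h1 h2 h3
    exact F.le_max' t (by simp [hF]; exact ⟨by omega, h2, h3⟩)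
  obtain ⟨p', hp', hp'min⟩ : ∃ p', (a < p' ∧ p' ≤ p ∧ G.Adj (g 0) (g p')) ∧
      ∀ t, a < t → t ≤ n → G.Adj (g 0) (g t) → p' ≤ t := by
    have hex : ∃ t, a < t ∧ t ≤ n ∧ G.Adj (g 0) (g t) := ⟨p, hap, hp.2.1, hp.2.2⟩
    exact ⟨Nat.find hex, ⟨(Nat.find_spec hex).1, Nat.find_min' hex ⟨hap, hp.2.1, hp.2.2⟩,
      (Nat.find_spec hex).2.2⟩, fun t h1 h2 h3 => Nat.find_min' hex ⟨h1, h2, h3⟩⟩
  obtain ⟨Z, hZ, hZoff, hZchain⟩ : ∃ Z : List V, PathIn G B Z ∧
      (∀ z ∈ Z, z ∉ l ∧ ∀ t ≤ n, OffReach (G := G) (B := B) l z (g t) → t ≤ b) ∧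
      List.IsChain G.Adj (g a :: Z ++ [g b]) := by
    rcases hjump with h | ⟨z₀, haz, hz₀B, hz₀l, w, hwB, hwl, hwb, hr⟩
    · exact ⟨[], ⟨by simp, by simp, by simp⟩, by simp, by simp [h]⟩
    obtain ⟨Z, hZ, hZX, hne', hh, hlast⟩ := exists_path_of_reach (X := {x | x ∈ l}) hz₀B hz₀l hr
    refine ⟨Z, hZ, fun z hz => ⟨(hZX z hz).1, fun t ht ⟨_, _, w', hw'B, hw'l, hw't, hr'⟩ => ?_⟩, ?_⟩
    · by_contra hlt
      have hback : Relation.ReflTransGen (StepIn G B {x | x ∈ l}) z₀ z :=
        hr.trans (reach_symm (hZX z hz).2)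
      have := hbmax t ht (by omega)
        ⟨a, hap, Or.inr ⟨z₀, haz, hz₀B, hz₀l, w', hw'B, hw'l, hw't, hback.trans hr'⟩⟩
      omega
    · rw [List.cons_append, ← List.cons_head_tail hne', List.cons_append, List.isChain_cons_cons, hh]
      refine ⟨haz, ?_⟩
      rw [← List.cons_append, List.isChain_append]
      refine ⟨?_, List.isChain_singleton _, ?_⟩
      · rw [← hh, List.cons_head_tail hne']; exact hZ.2.2
      · intro u hu v hv
        rw [← hh, List.cons_head_tail hne', List.getLast?_eq_some_getLast hne', Option.mem_def,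
          Option.some.injEq] at hu
        simp only [List.head?_cons, Option.mem_def, Option.some.injEq] at hv
        rw [← hu, ← hv, hlast]
        exact hwb
  obtain ⟨h1, h1m, h1ne, h1h, h1l⟩ := seg_spec (G := G) hB' hinj hadj hp'.2.1 hp.2.1
  obtain ⟨h2, h2m, h2ne, h2h, h2l⟩ := seg_spec (G := G) hB' hinj hadj (Nat.zero_le a) (by omega)
  have hone : PathIn G B [g b] := ⟨by simp, by simpa using hB' b (by omega), by simp⟩
  have htail : PathIn G B (Z ++ [g b]) := hZ.append hone (fun z hz hz' => by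
      rw [List.mem_singleton] at hz'
      exact (hZoff z hz).1 (hz' ▸ hmem b (by omega)))
    fun h3 _ => by
      have h := (List.isChain_append.1 hZchain).2.2 _
        (by rw [List.getLast?_cons_of_ne_nil h3, List.getLast?_eq_some_getLast h3]; rfl) (g b) (by simp)
      simpa using h
  have hL : PathIn G B ((seg g p' p).reverse ++ (seg g 0 a ++ (Z ++ [g b]))) := by
    refine h1.reverse.append (h2.append htail ?_ ?_) ?_ ?_
    · intro z hz hz'
      obtain ⟨i, hi1, hi2, rfl⟩ := (h2m z).1 hz
      rcases List.mem_append.1 hz' with h | h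
      · exact (hZoff _ h).1 (hmem i (by omega))
      · rw [List.mem_singleton] at h
        have := hinj i b (by omega) (by omega) h
        omega
    · intro _ h3
      rw [h2l]
      have h := hZchain
      rw [List.cons_append, ← List.cons_head_tail h3, List.isChain_cons_cons] at h
      exact h.1
    · intro z hz hz'
      obtain ⟨i, hi1, hi2, rfl⟩ := (h1m z).1 (List.mem_reverse.1 hz)
      rcases List.mem_append.1 hz' with h | h
      · obtain ⟨j, -, hj2, hj⟩ := (h2m _).1 h
        have := hinj j i (by omega) (by omega) hj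
        omega
      rcases List.mem_append.1 h with h | h
      · exact (hZoff _ h).1 (hmem i (by omega))
      · rw [List.mem_singleton] at h
        have := hinj i b (by omega) (by omega) h
        omega
    · intro _ _
      rw [List.getLast_reverse, h1h, List.head_append_of_ne_nil h2ne, h2h]
      exact hp'.2.2.symm
  refine vine s (insert (g 0) N0) hsurj hmem hl.2.1 hinj hadj hcut' hs.1 hs.2 ?_ (n - b) p b _
    (by omega) hpb (by omega) hps hL ⟨by simp, ?_, ?_⟩ ?_ ?_ ?_
  · intro c hQc hT hnc hcnd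
    have hsub : (insert (g 0) N0) ∪ (insert (g n) N1) ⊆ c.toFinset := by
      intro x hx
      rw [List.mem_toFinset]
      rcases mem_union.1 hx with h | h
      · exact hQc x h
      · rcases mem_insert.1 h with rfl | h
        · exact hnc
        · obtain ⟨i, hi, rfl, hia⟩ := hidx1 x h
          exact hT i (hsmin i hi hia) hi.le hia
    have hint : #((insert (g 0) N0) ∩ (insert (g n) N1)) ≤ 1 := by
      refine card_le_one.2 fun x hx y hy => ?_
      have key : ∀ z ∈ (insert (g 0) N0) ∩ (insert (g n) N1), z = g p := by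
        intro z hz
        rw [mem_inter] at hz
        rcases mem_insert.1 hz.2 with rfl | hz2
        · rcases mem_insert.1 hz.1 with h | h
          · have := hinj n 0 le_rfl (by omega) h; omega
          · obtain ⟨i, h1', h2', h3', h4'⟩ := hidx _ h
            have := hinj i n h2' le_rfl h3'
            have := hpmax i h2' h4'
            omega
        · obtain ⟨i, hi, rfl, hia⟩ := hidx1 z hz2
          have := hsmin i hi hia
          rcases mem_insert.1 hz.1 with h | h
          · have := hinj i 0 hi.le (by omega) h; omega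
          · obtain ⟨i', h1', h2', h3', h4'⟩ := hidx _ h
            have := hinj i' i h2' hi.le h3'
            have := hpmax i' h2' h4'
            rw [show i = p by omega]
      rw [key x hx, key y hy]
    have h0 : g 0 ∉ N0 := by simp [hN0]
    have h0' : g n ∉ N1 := by simp [hN1]
    have hu := card_union_add_card_inter (insert (g 0) N0) (insert (g n) N1)
    rw [card_insert_of_notMem h0, card_insert_of_notMem h0'] at hu
    have := (card_le_card hsub).trans (List.toFinset_card_le c)
    exact le_trans (min_le_left _ _) (by omega)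
  · rw [List.head_append_of_ne_nil (by simpa using h1ne), List.head_reverse, h1l]
  · simp
  · intro z hz
    rcases mem_insert.1 hz with rfl | hz
    · exact List.mem_append_right _ (List.mem_append_left _ ((h2m _).2 ⟨0, le_rfl, by omega, rfl⟩))
    · obtain ⟨i, hi1, hi2, rfl, hia⟩ := hidx z hz
      rcases le_or_gt i a with h | h
      · exact List.mem_append_right _ (List.mem_append_left _ ((h2m _).2 ⟨i, Nat.zero_le _, h, rfl⟩))
      · exact List.mem_append_left _ (List.mem_reverse.2
          ((h1m _).2 ⟨i, hp'min i h hi2 hia, hpmax i hi2 hia, rfl⟩))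
  · intro a' ha' t ht hbt hJ
    have := hbmax t ht (by omega) ⟨a', ha', hJ⟩
    omega
  · intro z hz
    rcases List.mem_append.1 hz with h | h
    · obtain ⟨i, hi1, hi2, rfl⟩ := (h1m z).1 (List.mem_reverse.1 h)
      exact Or.inl ⟨i, Or.inl hi2, by omega, rfl⟩
    rcases List.mem_append.1 h with h | h
    · obtain ⟨i, hi1, hi2, rfl⟩ := (h2m z).1 h
      exact Or.inl ⟨i, Or.inl (by omega), by omega, rfl⟩
    rcases List.mem_append.1 h with h | h
    · exact Or.inr (hZoff z h)
    · rw [List.mem_singleton] at h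
      exact Or.inl ⟨b, Or.inr rfl, by omega, h.symm⟩

end Vale.Agent.P048.Dirac
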