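import Mathlib

/-!
The weighted linear forest lemma of P048: with more rows than columns and every row sum at least
`t`, some linear forest of column-labelled edges has weight at least `2 t`.
-/

namespace Vale.Agent.P048.Forest

open Finset

variable {U P : Type*}

/-- A labelled path: a first unit and the labelled steps after it. -/
abbrev Comp (U P : Type*) := U × List (P × U)

/-- The units of a component. -/
def units (C : Comp U P) : List U := C.1 :: C.2.map Prod.snd

/-- The labels of a component. -/
def cols (C : Comp U P) : List P := C.2.map Prod.fst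

/-- The labelled edges of a component. -/
def edgesFrom (u : U) : List (P × U) → List (U × P × U)
  | [] => []
  | (c, v) :: r => (u, c, v) :: edgesFrom v r

/-- The last unit of a component. -/
def lastFrom (u : U) : List (P × U) → U
  | [] => u
  | (_, v) :: r => lastFrom v r

/-- Join two components by an edge labelled `c`. -/
def join (A : Comp U P) (c : P) (B : Comp U P) : Comp U P := (A.1, A.2 ++ (c, B.1) :: B.2)

/-- The reversed component. -/
def revFrom (u : U) : List (P × U) → Comp U P
  | [] => (u, [])
  | (c, v) :: r => join (revFrom v r) c (u, [])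

/-- The edges of a component. -/
def edges (C : Comp U P) : List (U × P × U) := edgesFrom C.1 C.2

theorem edgesFrom_append (u : U) (r : List (P × U)) (c : P) (v : U) (s : List (P × U)) :
    edgesFrom u (r ++ (c, v) :: s) =
      edgesFrom u r ++ (lastFrom u r, c, v) :: edgesFrom v s := by
  induction r generalizing u with
  | nil => rfl
  | cons e r ih => obtain ⟨c', v'⟩ := e; simp [edgesFrom, lastFrom, ih]

theorem lastFrom_append (u : U) (r : List (P × U)) (c : P) (v : U) (s : List (P × U)) :
    lastFrom u (r ++ (c, v) :: s) = lastFrom v s := by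
  induction r generalizing u with
  | nil => rfl
  | cons e r ih => obtain ⟨c', v'⟩ := e; simp [lastFrom, ih]

theorem units_join (A : Comp U P) (c : P) (B : Comp U P) :
    units (join A c B) = units A ++ units B := by simp [units, join]

theorem cols_join (A : Comp U P) (c : P) (B : Comp U P) :
    cols (join A c B) = cols A ++ c :: cols B := by simp [cols, join]

variable (d : U → P → ℕ)

/-- The weight of an edge. -/
def ew (e : U × P × U) : ℕ := d e.1 e.2.1 + d e.2.2 e.2.1

/-- The weight of a component. -/
def weight (C : Comp U P) : ℕ := ((edges C).map (ew d)).sum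

/-- All edges have positive weight at both ends. -/
def Pos (C : Comp U P) : Prop := ∀ e ∈ edges C, 0 < d e.1 e.2.1 ∧ 0 < d e.2.2 e.2.1

theorem weight_join (A : Comp U P) (c : P) (B : Comp U P) :
    weight d (join A c B) = weight d A + weight d B + (d (lastFrom A.1 A.2) c + d B.1 c) := by
  simp [weight, edges, join, edgesFrom_append, ew]; omega

theorem pos_join {A : Comp U P} {c : P} {B : Comp U P} :
    Pos d (join A c B) ↔ Pos d A ∧ Pos d B ∧ 0 < d (lastFrom A.1 A.2) c ∧ 0 < d B.1 c := by
  simp only [Pos, edges, join, edgesFrom_append, List.mem_append, List.mem_cons]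
  constructor
  · intro h
    exact ⟨fun e he => h e (Or.inl he), fun e he => h e (Or.inr (Or.inr he)),
      h (lastFrom A.1 A.2, c, B.1) (Or.inr (Or.inl rfl))⟩
  · rintro ⟨h1, h2, h3⟩ e (he | rfl | he)
    exacts [h1 e he, h3, h2 e he]

theorem rev_spec (u : U) (r : List (P × U)) :
    (units (revFrom u r)).Perm (units (u, r)) ∧ (cols (revFrom u r)).Perm (cols (u, r)) ∧
      weight d (revFrom u r) = weight d (u, r) ∧ (Pos d (u, r) → Pos d (revFrom u r)) ∧
      (revFrom u r).1 = lastFrom u r ∧ lastFrom (revFrom u r).1 (revFrom u r).2 = u := by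
  induction r generalizing u with
  | nil => exact ⟨List.Perm.refl _, List.Perm.refl _, rfl, id, rfl, rfl⟩
  | cons e r ih =>
    obtain ⟨c, v⟩ := e
    obtain ⟨h1, h2, h3, h4, h5, h6⟩ := ih v
    have hj : ((u, (c, v) :: r) : Comp U P) = join (u, []) c (v, r) := rfl
    refine ⟨?_, ?_, ?_, ?_, ?_, ?_⟩
    · rw [revFrom, units_join, hj, units_join]
      exact (List.perm_append_comm).trans (h1.append_left _)
    · rw [revFrom, cols_join, hj, cols_join]
      simpa [cols] using List.perm_middle.trans (by simpa [cols] using List.Perm.cons c h2)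
    · rw [revFrom, weight_join, hj, weight_join, h3, h6]
      simp [weight, edges, edgesFrom, lastFrom]
      omega
    · intro hp
      rw [hj, pos_join] at hp
      rw [revFrom, pos_join, h6]
      exact ⟨h4 hp.2.1, hp.1, hp.2.2.2, hp.2.2.1⟩
    · show (revFrom v r).1 = lastFrom v r
      exact h5
    · rw [revFrom, join, lastFrom_append]; rfl

/-- A forest of disjoint components covering the units `Us`, with distinct labels from `Ps`. -/
structure IsForest (Us : Finset U) (Ps : Finset P) (L : List (Comp U P)) : Prop where
  cover : (L.flatMap units).Perm Us.toList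
  nodup : (L.flatMap cols).Nodup
  sub : ∀ c ∈ L.flatMap cols, c ∈ Ps
  pos : ∀ C ∈ L, Pos d C

/-- The weight of a forest. -/
def total (L : List (Comp U P)) : ℕ := (L.map (weight d)).sum

variable {d} {Us : Finset U} {Ps : Finset P}

theorem IsForest.perm {L L' : List (Comp U P)} (h : IsForest d Us Ps L) (hp : L.Perm L') :
    IsForest d Us Ps L' ∧ total d L' = total d L :=
  ⟨⟨((hp.flatMap_right _).symm).trans h.cover, (hp.flatMap_right _).nodup_iff.1 h.nodup,
    fun c hc => h.sub c ((hp.flatMap_right _).mem_iff.2 hc),
    fun C hC => h.pos C (hp.mem_iff.2 hC)⟩, ((hp.map _).sum_eq).symm⟩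

/-- `p` is an end of `C`. -/
def IsEnd (C : Comp U P) (p : U) : Prop := p = C.1 ∨ p = lastFrom C.1 C.2

theorem orient {L : List (Comp U P)} {C : Comp U P} (h : IsForest d Us Ps (C :: L)) {p : U}
    (hp : IsEnd C p) : ∃ A B : Comp U P, A.1 = p ∧ lastFrom B.1 B.2 = p ∧
      (IsForest d Us Ps (A :: L) ∧ weight d A = weight d C ∧ (cols A).Perm (cols C)) ∧
      (IsForest d Us Ps (B :: L) ∧ weight d B = weight d C ∧ (cols B).Perm (cols C)) := by
  obtain ⟨u, r⟩ := C
  obtain ⟨h1, h2, h3, h4, h5, h6⟩ := rev_spec d u r
  have hrev : IsForest d Us Ps (revFrom u r :: L) := by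
    refine ⟨?_, ?_, ?_, ?_⟩
    · exact ((h1.append_right _)).trans h.cover
    · exact (List.Perm.nodup_iff (h2.append_right _)).2 h.nodup
    · exact fun c hc => h.sub c ((h2.append_right _).mem_iff.1 hc)
    · intro C hC
      rcases List.mem_cons.1 hC with rfl | hC
      · exact h4 (h.pos _ (by simp))
      · exact h.pos C (List.mem_cons_of_mem _ hC)
  rcases hp with hp | hp
  · exact ⟨(u, r), revFrom u r, hp.symm, h6.trans hp.symm, ⟨h, rfl, List.Perm.refl _⟩, hrev, h3, h2⟩
  · exact ⟨revFrom u r, (u, r), h5.trans hp.symm, hp.symm, ⟨hrev, h3, h2⟩, h, rfl,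
      List.Perm.refl _⟩

/-- Two components can be joined at any ends by an unused label. -/
theorem exists_join {L : List (Comp U P)} {C D : Comp U P}
    (h : IsForest d Us Ps (C :: D :: L)) {c : P} (hc : c ∈ Ps)
    (hnew : c ∉ (C :: D :: L).flatMap cols) {p q : U} (hp : IsEnd C p) (hq : IsEnd D q)
    (hdp : 0 < d p c) (hdq : 0 < d q c) :
    ∃ L', IsForest d Us Ps L' ∧ total d L' = total d (C :: D :: L) + (d p c + d q c) := by
  obtain ⟨-, B, -, hB, -, hB1, hB2, hB3⟩ := orient h hp
  obtain ⟨A, -, hA, -, ⟨hA1, hA2, hA3⟩, -⟩ := orient (hB1.perm (List.Perm.swap D B L)).1 hq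
  have h2 := (hA1.perm (List.Perm.swap B A L)).1
  have hnew' : c ∉ (B :: A :: L).flatMap cols := by
    simp only [List.flatMap_cons, List.mem_append, hB3.mem_iff, hA3.mem_iff]
    simpa [List.flatMap_cons, List.mem_append] using hnew
  refine ⟨join B c A :: L, ⟨?_, ?_, ?_, ?_⟩, ?_⟩
  · have h' := h2.cover
    simpa [List.flatMap_cons, units_join, List.append_assoc] using h'
  · have hperm : ((join B c A :: L).flatMap cols).Perm (c :: (B :: A :: L).flatMap cols) := by
      simp only [List.flatMap_cons, cols_join, List.append_assoc, List.cons_append]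
      exact List.perm_middle
    rw [hperm.nodup_iff, List.nodup_cons]
    exact ⟨hnew', h2.nodup⟩
  · intro x hx
    simp only [List.flatMap_cons, cols_join, List.mem_append, List.mem_cons] at hx
    rcases hx with (hx | rfl | hx) | hx
    · exact h2.sub x (by simp [hx])
    · exact hc
    · exact h2.sub x (by simp [hx])
    · exact h2.sub x (by simp only [List.flatMap_cons, List.mem_append]; exact Or.inr (Or.inr hx))
  · intro X hX
    rcases List.mem_cons.1 hX with rfl | hX
    · rw [pos_join, hB, hA]
      exact ⟨h2.pos B (by simp), h2.pos A (by simp), hdp, hdq⟩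
    · exact h2.pos X (by simp [hX])
  · simp only [total, List.map_cons, List.sum_cons, weight_join, hB, hA, hB2, hA2]
    omega

/-- A member of a list can be moved to the front. -/
theorem exists_front {α : Type*} {L : List α} {x : α} (h : x ∈ L) :
    ∃ rest, L.Perm (x :: rest) := by
  obtain ⟨s, t, rfl⟩ := List.mem_iff_append.1 h
  exact ⟨s ++ t, List.perm_middle⟩

theorem mem_cols_split {C : Comp U P} {c : P} (h : c ∈ cols C) :
    ∃ A B : Comp U P, C = join A c B := by
  obtain ⟨u, r⟩ := C
  simp only [cols, List.mem_map] at h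
  obtain ⟨⟨c', v⟩, he, rfl⟩ := h
  obtain ⟨s, t, rfl⟩ := List.mem_iff_append.1 he
  exact ⟨(u, s), (v, t), rfl⟩

theorem length_units_eq (C : Comp U P) : (units C).length = (cols C).length + 1 := by
  simp [units, cols]

theorem length_units (L : List (Comp U P)) :
    (L.flatMap units).length = (L.flatMap cols).length + L.length := by
  induction L with
  | nil => rfl
  | cons C L ih =>
    simp only [List.flatMap_cons, List.length_append, ih, length_units_eq, List.length_cons]
    omega

theorem lastFrom_mem (u : U) (r : List (P × U)) : lastFrom u r ∈ u :: r.map Prod.snd := by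
  induction r generalizing u with
  | nil => simp [lastFrom]
  | cons e r ih =>
    obtain ⟨c, v⟩ := e
    simp only [lastFrom, List.map_cons]
    exact List.mem_cons_of_mem _ (ih v)

theorem end_mem {C : Comp U P} {p : U} (h : IsEnd C p) : p ∈ units C := by
  rcases h with rfl | rfl
  · simp [units]
  · exact lastFrom_mem _ _

theorem sum_weight (L : List (Comp U P)) (f : P → ℕ)
    (h : ∀ C ∈ L, ∀ e ∈ edges C, f e.2.1 ≤ ew d e) :
    ((L.flatMap cols).map f).sum ≤ total d L := by
  induction L with
  | nil => simp [total]
  | cons C L ih =>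
    simp only [List.flatMap_cons, List.map_append, List.sum_append, total, List.map_cons,
      List.sum_cons]
    refine Nat.add_le_add ?_ (ih fun C hC => h C (List.mem_cons_of_mem _ hC))
    have hC := h C (by simp)
    obtain ⟨u, r⟩ := C
    simp only [cols, weight, edges] at hC ⊢
    clear h ih
    induction r generalizing u with
    | nil => simp
    | cons e r ih =>
      obtain ⟨c, v⟩ := e
      simp only [edgesFrom, List.map_cons, List.sum_cons]
      exact Nat.add_le_add (hC (u, c, v) (by simp [edgesFrom]))
        (ih v fun e he => hC e (by simp [edgesFrom, he]))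

theorem weight_le [DecidableEq P] (L : List (Comp U P)) (h : IsForest d Us Ps L) :
    total d L ≤ 2 * ∑ c ∈ Ps, ∑ u ∈ Us, d u c := by
  classical
  have hmem : ∀ C ∈ L, ∀ u ∈ units C, u ∈ Us := fun C hC u hu =>
    mem_toList.1 (h.cover.mem_iff.1 (List.mem_flatMap.2 ⟨C, hC, hu⟩))
  have key : ∀ (u : U) (r : List (P × U)), (∀ x ∈ units (u, r), x ∈ Us) →
      weight d (u, r) ≤ ((cols (u, r)).map fun c => 2 * ∑ x ∈ Us, d x c).sum := by
    intro u r
    induction r generalizing u with
    | nil => simp [weight, edges, edgesFrom]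
    | cons e r ih =>
      obtain ⟨c, v⟩ := e
      intro hu
      simp only [weight, edges, edgesFrom, cols, List.map_cons, List.sum_cons, ew] at ih ⊢
      refine Nat.add_le_add ?_ (ih v fun x hx => hu x (by simp [units] at hx ⊢; tauto))
      have h1 := single_le_sum (f := fun x => d x c) (fun _ _ => Nat.zero_le _) (hu u (by simp [units]))
      have h2 := single_le_sum (f := fun x => d x c) (fun _ _ => Nat.zero_le _) (hu v (by simp [units]))
      omega
  have h1 : total d L ≤ ((L.flatMap cols).map fun c => 2 * ∑ x ∈ Us, d x c).sum := by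
    have hm := hmem
    clear h hmem
    induction L with
    | nil => simp [total]
    | cons C L ih =>
      simp only [total, List.map_cons, List.sum_cons, List.flatMap_cons, List.map_append,
        List.sum_append]
      exact Nat.add_le_add (key C.1 C.2 fun x hx => hm C (by simp) x hx)
        (ih fun C hC => hm C (List.mem_cons_of_mem _ hC))
  refine h1.trans ?_
  rw [← List.sum_toFinset _ h.nodup, mul_sum]
  exact sum_le_sum_of_subset fun c hc => h.sub c (List.mem_toFinset.1 hc)

/-- The forest lemma. -/
theorem exists_heavy_forest [DecidableEq P] [DecidableEq U] (Us : Finset U) (Ps : Finset P) (t : ℕ)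
    (hlt : #Ps < #Us) (hrow : ∀ u ∈ Us, t ≤ ∑ c ∈ Ps, d u c) :
    ∃ L : List (Comp U P), IsForest d Us Ps L ∧ 2 * t ≤ total d L := by
  classical
  let good : ℕ → Prop := fun w => ∃ L, IsForest d Us Ps L ∧ total d L = w
  have hbd : ∀ w, good w → w ≤ 2 * ∑ c ∈ Ps, ∑ u ∈ Us, d u c := by
    rintro w ⟨L, hL, rfl⟩; exact weight_le L hL
  have h0 : good 0 := by
    refine ⟨Us.toList.map fun u => (u, []), ⟨?_, ?_, ?_, ?_⟩, ?_⟩
    · simp [List.flatMap_map, units]
    · rw [List.flatMap_eq_nil_iff.2 fun C hC => by
        obtain ⟨u, -, rfl⟩ := List.mem_map.1 hC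
        rfl]
      exact List.nodup_nil
    · simp [List.flatMap_map, cols]
    · intro C hC
      obtain ⟨u, -, rfl⟩ := List.mem_map.1 hC
      simp [Pos, edges, edgesFrom]
    · simp [total, weight, edges, edgesFrom, Function.comp_def]
  obtain ⟨L, hL, hw⟩ : good (Nat.findGreatest good (2 * ∑ c ∈ Ps, ∑ u ∈ Us, d u c)) :=
    Nat.findGreatest_spec (Nat.zero_le _) h0
  have hmax : ∀ L', IsForest d Us Ps L' → total d L' ≤ total d L := fun L' h' => by
    rw [hw]
    exact Nat.le_findGreatest (hbd _ ⟨L', h', rfl⟩) ⟨L', h', rfl⟩
  refine ⟨L, hL, ?_⟩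
  set used := (L.flatMap cols).toFinset with hused
  have hsub : used ⊆ Ps := fun c hc => hL.sub c (List.mem_toFinset.1 hc)
  have hlen := length_units L
  rw [hL.cover.length_eq, Finset.length_toList, ← List.toFinset_card_of_nodup hL.nodup] at hlen
  rw [← hused] at hlen
  have hnodupL : L.Nodup := by
    refine List.Nodup.of_map Prod.fst ?_
    have : (L.map Prod.fst).Sublist (L.flatMap units) := by
      clear hlen hmax hw hL hused hsub
      induction L with
      | nil => simp
      | cons C L ih =>
        simp only [List.map_cons, List.flatMap_cons, units, List.cons_append]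
        exact (ih.trans (List.sublist_append_right _ _)).cons_cons _
    exact (hL.cover.nodup_iff.2 (nodup_toList _)).sublist this
  -- a component whose ends avoid all unused labels
  obtain ⟨C, hC, hCgood⟩ : ∃ C ∈ L, ∀ c ∈ Ps \ used, ∀ p, IsEnd C p → d p c = 0 := by
    by_contra hcon
    push Not at hcon
    choose f hf g hg hg' using hcon
    have hle := card_le_card_of_injOn (s := L.toFinset.attach) (t := Ps \ used)
      (fun C => f C.1 (List.mem_toFinset.1 C.2)) (fun C _ => hf _ _)
      (fun A' _ B' _ hAB => by
        obtain ⟨A, hA'⟩ := A'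
        obtain ⟨B, hB'⟩ := B'
        have hA : A ∈ L := List.mem_toFinset.1 hA'
        have hB : B ∈ L := List.mem_toFinset.1 hB'
        change f A hA = f B hB at hAB
        rw [Subtype.mk.injEq]
        by_contra hne
        obtain ⟨r1, hr1⟩ := exists_front hA
        have hB1 : B ∈ r1 := by
          rcases List.mem_cons.1 (hr1.mem_iff.1 hB) with h | h
          · exact absurd h.symm hne
          · exact h
        obtain ⟨r2, hr2⟩ := exists_front hB1
        have hp : L.Perm (A :: B :: r2) := hr1.trans (hr2.cons A)
        obtain ⟨h', ht'⟩ := hL.perm hp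
        obtain ⟨hfP, hfu⟩ := mem_sdiff.1 (hf A hA)
        obtain ⟨L', hL', hT⟩ := exists_join h' hfP
          (fun hin => hfu (List.mem_toFinset.2 ((hp.flatMap_right _).mem_iff.2 hin)))
          (hg A hA) (hg B hB) (Nat.pos_of_ne_zero (hg' A hA))
          (Nat.pos_of_ne_zero (hAB ▸ hg' B hB))
        have := hmax L' hL'
        have := Nat.pos_of_ne_zero (hg' A hA)
        omega)
    rw [card_attach, List.toFinset_card_of_nodup hnodupL, card_sdiff_of_subset hsub] at hle
    have := card_le_card hsub
    omega
  have hx : IsEnd C C.1 := Or.inl rfl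
  have hx' : IsEnd C (lastFrom C.1 C.2) := Or.inr rfl
  set x := C.1 with hxdef
  set x' := lastFrom C.1 C.2 with hx'def
  -- each used label carries at least what the two ends of `C` could get from it
  have hedge : ∀ E ∈ L, ∀ e ∈ edges E, d x e.2.1 + d x' e.2.1 ≤ ew d e := by
    intro E hE e he
    obtain ⟨u, c, v⟩ := e
    obtain ⟨A, B, hEeq, hAu, hBv⟩ : ∃ A B : Comp U P,
        E = join A c B ∧ lastFrom A.1 A.2 = u ∧ B.1 = v := by
      obtain ⟨w, r⟩ := E
      clear hE
      simp only [edges] at he
      induction r generalizing w with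
      | nil => simp [edgesFrom] at he
      | cons e r ih =>
        obtain ⟨c', v'⟩ := e
        rcases List.mem_cons.1 he with h | h
        · simp only [Prod.mk.injEq] at h
          obtain ⟨rfl, rfl, rfl⟩ := h
          exact ⟨(u, []), (v, r), rfl, rfl, rfl⟩
        · obtain ⟨A, B, hEq, h1, h2⟩ := ih v' h
          simp only [join, Prod.mk.injEq] at hEq
          refine ⟨(w, (c', v') :: A.2), B, ?_, ?_, h2⟩
          · simp [join, hEq.2]
          · rw [lastFrom, hEq.1]; exact h1
    obtain ⟨r1, hr1⟩ := exists_front hE
    obtain ⟨h', ht'⟩ := hL.perm hr1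
    have hcut : IsForest d Us Ps (A :: B :: r1) ∧
        total d (A :: B :: r1) + (d u c + d v c) = total d L ∧
        c ∉ (A :: B :: r1).flatMap cols ∧ c ∈ Ps := by
      have hperm : ((E :: r1).flatMap cols).Perm (c :: (A :: B :: r1).flatMap cols) := by
        simp only [List.flatMap_cons, hEeq, cols_join, List.append_assoc, List.cons_append]
        exact List.perm_middle
      have hnd := hperm.nodup_iff.1 h'.nodup
      rw [List.nodup_cons] at hnd
      have hpos : Pos d (join A c B) := hEeq ▸ h'.pos E (by simp)
      rw [pos_join] at hpos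
      refine ⟨⟨?_, hnd.2, fun z hz => h'.sub z (hperm.mem_iff.2 (List.mem_cons_of_mem _ hz)), ?_⟩,
        ?_, hnd.1, h'.sub c (hperm.mem_iff.2 (by simp))⟩
      · simpa [List.flatMap_cons, hEeq, units_join, List.append_assoc] using h'.cover
      · intro X hX
        simp only [List.mem_cons] at hX
        rcases hX with rfl | rfl | hX
        · exact hpos.1
        · exact hpos.2.1
        · exact h'.pos X (by simp [hX])
      · rw [← ht']
        simp only [total, List.map_cons, List.sum_cons, hEeq, weight_join, hAu, hBv]
        omega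
    obtain ⟨hcF, hct, hcn, hcP⟩ := hcut
    have hne : ∀ {X Y : Comp U P} {p q : U} {r : List (Comp U P)},
        (A :: B :: r1).Perm (X :: Y :: r) → IsEnd X p → IsEnd Y q → 0 < d p c → 0 < d q c →
        d p c + d q c ≤ d u c + d v c := by
      intro X Y p q r hp hX hY hdp hdq
      obtain ⟨h'', ht''⟩ := hcF.perm hp
      obtain ⟨L', hL', hT⟩ := exists_join h'' hcP
        (fun hin => hcn ((hp.flatMap_right _).mem_iff.2 hin)) hX hY hdp hdq
      have := hmax L' hL'
      omega
    have hpos : 0 < d u c ∧ 0 < d v c := hL.pos E hE (u, c, v) he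
    have huA : IsEnd A u := Or.inr hAu.symm
    have hvB : IsEnd B v := Or.inl hBv.symm
    show d x c + d x' c ≤ d u c + d v c
    rcases List.mem_cons.1 (hr1.mem_iff.1 hC) with hCE | hCr
    · have e1 : IsEnd A x := Or.inl (by rw [hxdef, hCE, hEeq]; rfl)
      have e2 : IsEnd B x' := Or.inr (by rw [hx'def, hCE, hEeq, join, lastFrom_append])
      have t1 : d x c ≤ d u c := by
        rcases Nat.eq_zero_or_pos (d x c) with h | h
        · omega
        · have := hne (List.Perm.refl _) e1 hvB h hpos.2
          omega
      have t2 : d x' c ≤ d v c := by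
        rcases Nat.eq_zero_or_pos (d x' c) with h | h
        · omega
        · have := hne (List.Perm.refl _) huA e2 hpos.1 h
          omega
      omega
    · obtain ⟨r2, hr2⟩ := exists_front hCr
      have t1 : d x c ≤ d v c := by
        rcases Nat.eq_zero_or_pos (d x c) with h | h
        · omega
        · have := hne (X := C) (Y := A) (r := B :: r2) ?_ hx huA h hpos.1
          · omega
          · exact ((hr2.cons B).cons A).trans (((List.Perm.swap C B r2).cons A).trans
              (List.Perm.swap C A _))
      have t2 : d x' c ≤ d u c := by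
        rcases Nat.eq_zero_or_pos (d x' c) with h | h
        · omega
        · have := hne (X := C) (Y := B) (r := A :: r2) ?_ hx' hvB h hpos.2
          · omega
          · exact ((hr2.cons B).cons A).trans ((List.Perm.swap B A _).trans
              (((List.Perm.swap C A r2).cons B).trans (List.Perm.swap C B _)))
      omega
  have hxU : x ∈ Us :=
    mem_toList.1 (hL.cover.mem_iff.1 (List.mem_flatMap.2 ⟨C, hC, end_mem hx⟩))
  have hx'U : x' ∈ Us :=
    mem_toList.1 (hL.cover.mem_iff.1 (List.mem_flatMap.2 ⟨C, hC, end_mem hx'⟩))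
  have hz : ∀ p, IsEnd C p → ∑ c ∈ Ps, d p c = ∑ c ∈ used, d p c := fun p hp => by
    rw [← sum_sdiff hsub, sum_eq_zero fun c hc => hCgood c hc p hp, zero_add]
  have h2 : ∑ c ∈ used, (d x c + d x' c) ≤ total d L := by
    rw [hused, List.sum_toFinset _ hL.nodup]
    exact sum_weight L _ hedge
  rw [sum_add_distrib, ← hz x hx, ← hz x' hx'] at h2
  have := hrow x hxU
  have := hrow x' hx'U
  omega

end Vale.Agent.P048.Forest
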