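import Vale.Agent.P048.Dirac

/-!
The layering step for P048: a connected graph with independence number below `n` and more than
`2q(n-1)` vertices has a dense critical piece `B` inside one BFS layer, split by the BFS tree into
`A` and `B \ A` so that all pairs across are joined outside `B` by paths of one length `2d`, `d ≤ n`.
-/

namespace Vale.Agent.P048

open Finset
open Dirac (StepIn)

variable {V : Type*} (G : SimpleGraph V)

/-- `L` has a proper colouring with `q` colours. -/
def ColOn (L : Finset V) (q : ℕ) : Prop :=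
  ∃ c : V → ℕ, (∀ x ∈ L, c x < q) ∧ ∀ x ∈ L, ∀ y ∈ L, G.Adj x y → c x ≠ c y

/-- Edges at distance exactly two between vertices of `I`. -/
def stepTwo (I : Finset V) : SimpleGraph V :=
  SimpleGraph.fromRel fun x y => x ∈ I ∧ y ∈ I ∧ G.dist x y ≤ 2

variable {G}

/-- A connected graph with independence number below `n` has a centre of eccentricity `≤ n`. -/
theorem exists_centre [Fintype V] [DecidableEq V] (hconn : G.Connected) {n : ℕ}
    (hα : ∀ I : Finset V, (∀ x ∈ I, ∀ y ∈ I, ¬ G.Adj x y) → #I < n) :
    ∃ v, ∀ u, G.dist v u ≤ n := by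
  classical
  obtain ⟨v₀⟩ := hconn.nonempty
  set S := (univ : Finset V).powerset.filter fun I =>
    v₀ ∈ I ∧ (∀ x ∈ I, ∀ y ∈ I, ¬ G.Adj x y) ∧ ∀ x ∈ I, (stepTwo G I).Reachable v₀ x
    with hSdef
  have hS : S.Nonempty := ⟨{v₀}, by simp [hSdef]⟩
  obtain ⟨I, hI, hmax⟩ := S.exists_max_image (fun I => #I) hS
  simp only [hSdef, mem_filter, mem_powerset, subset_univ, true_and] at hI hmax
  obtain ⟨hv₀, hind, hreach⟩ := hI
  have hnear : ∀ u, u ∈ I ∨ ∃ x ∈ I, G.Adj x u := by
    by_contra hcon
    push Not at hcon
    obtain ⟨u, hu, hu'⟩ := hcon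
    obtain ⟨p⟩ := hconn.preconnected v₀ u
    obtain ⟨e, -, he1, he2⟩ := p.exists_boundary_dart {z | z ∈ I ∨ ∃ x ∈ I, G.Adj x z}
      (Or.inl hv₀) (by simpa [hu] using hu')
    simp only [Set.mem_ofPred_eq, not_or, not_exists, not_and] at he1 he2
    rcases he1 with h | ⟨x, hx, hxe⟩
    · exact he2.2 _ h e.adj
    · have h2 : G.dist x e.snd ≤ 2 :=
        SimpleGraph.dist_le (.cons hxe (.cons e.adj .nil))
      have hne : x ≠ e.snd := fun h => he2.1 (h ▸ hx)
      have hsub : stepTwo G I ≤ stepTwo G (insert e.snd I) := by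
        intro a b hab
        simp only [stepTwo, SimpleGraph.fromRel_adj] at hab ⊢
        refine ⟨hab.1, hab.2.imp ?_ ?_⟩ <;>
          exact fun h => ⟨mem_insert_of_mem h.1, mem_insert_of_mem h.2.1, h.2.2⟩
      have := hmax (insert e.snd I) ⟨mem_insert_of_mem hv₀, ?_, ?_⟩
      · rw [card_insert_of_notMem he2.1] at this
        omega
      · intro a ha b hb
        rcases mem_insert.1 ha with rfl | ha <;> rcases mem_insert.1 hb with rfl | hb
        · exact G.irrefl
        · exact fun h => he2.2 b hb h.symm
        · exact he2.2 a ha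
        · exact hind a ha b hb
      · intro a ha
        rcases mem_insert.1 ha with rfl | ha
        · refine ((hreach x hx).mono hsub).trans (SimpleGraph.Adj.reachable ?_)
          simp only [stepTwo, SimpleGraph.fromRel_adj]
          exact ⟨hne, Or.inl ⟨mem_insert_of_mem hx, mem_insert_self _ _, h2⟩⟩
        · exact (hreach a ha).mono hsub
  set H := stepTwo G I with hH
  have hdist : ∀ {a b : V} (p : H.Walk a b), G.dist a b ≤ 2 * p.length := by
    intro a b p
    induction p with
    | nil => simp
    | @cons a c b h p ih =>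
      have hac : G.dist a c ≤ 2 := by
        simp only [hH, stepTwo, SimpleGraph.fromRel_adj] at h
        rcases h.2 with h' | h'
        · exact h'.2.2
        · rw [SimpleGraph.dist_comm]; exact h'.2.2
      have := hconn.dist_triangle (u := a) (v := c) (w := b)
      simp only [SimpleGraph.Walk.length_cons]
      omega
  have hmem : ∀ {a b : V}, H.Adj a b → a ∈ I ∧ b ∈ I := by
    intro a b h
    simp only [hH, stepTwo, SimpleGraph.fromRel_adj] at h
    rcases h.2 with h' | h'
    · exact ⟨h'.1, h'.2.1⟩
    · exact ⟨h'.2.1, h'.1⟩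
  -- a median of `I`
  obtain ⟨v, hv, hmin⟩ := I.exists_min_image (fun c => ∑ y ∈ I, H.dist c y) ⟨v₀, hv₀⟩
  have hre : ∀ {a b : V}, a ∈ I → b ∈ I → H.Reachable a b := fun ha hb =>
    (hreach _ ha).symm.trans (hreach _ hb)
  have hecc : ∀ x ∈ I, 2 * H.dist v x ≤ #I := by
    intro x hx
    obtain ⟨p, hp⟩ := (hre hv hx).exists_walk_length_eq_dist
    rcases p with _ | ⟨hadj, p'⟩
    · simp
    rename_i c
    have hc := (hmem hadj).2
    have hstep : ∀ y ∈ I, H.dist c y ≤ H.dist v y + 1 ∧ H.dist v y ≤ H.dist c y + 1 := by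
      intro y hy
      obtain ⟨r, hr⟩ := (hre hv hy).exists_walk_length_eq_dist
      obtain ⟨s, hs⟩ := (hre hc hy).exists_walk_length_eq_dist
      have h1 := SimpleGraph.dist_le (SimpleGraph.Walk.cons hadj.symm r)
      have h2 := SimpleGraph.dist_le (SimpleGraph.Walk.cons hadj s)
      simp only [SimpleGraph.Walk.length_cons] at h1 h2
      omega
    set A := I.filter fun y => H.dist c y < H.dist v y
    set B := I.filter fun y => H.dist v y < H.dist c y
    have hAB : #A ≤ #B := by
      have h : ∑ y ∈ I, (H.dist c y + if H.dist c y < H.dist v y then 1 else 0) ≤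
          ∑ y ∈ I, (H.dist v y + if H.dist v y < H.dist c y then 1 else 0) :=
        sum_le_sum fun y hy => by have := hstep y hy; split_ifs <;> omega
      rw [sum_add_distrib, sum_add_distrib, sum_boole, sum_boole] at h
      have hm := hmin c hc
      simp only [Nat.cast_id] at h hm
      exact (Nat.add_le_add_iff_left).1 (h.trans (Nat.add_le_add_right hm _))
    have hcard : #A + #B ≤ #I := by
      rw [← card_union_of_disjoint (disjoint_filter.2 fun y _ h h' => by omega)]
      exact card_le_card (union_subset (filter_subset _ _) (filter_subset _ _))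
    simp only [SimpleGraph.Walk.length_cons] at hp
    have hA : H.dist v x ≤ #A := by
      rw [← hp]
      have hval : ∀ j ≤ p'.length, H.dist v (p'.getVert j) = j + 1 ∧ H.dist c (p'.getVert j) ≤ j := by
        intro j hj
        have h1 := SimpleGraph.dist_le (p'.take j)
        rw [SimpleGraph.Walk.take_length, min_eq_left hj] at h1
        have h2 := SimpleGraph.dist_le (SimpleGraph.Walk.cons hadj (p'.take j))
        rw [SimpleGraph.Walk.length_cons, SimpleGraph.Walk.take_length, min_eq_left hj] at h2
        obtain ⟨r, hr⟩ := (hadj.reachable.trans (p'.take j).reachable).exists_walk_length_eq_dist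
        have h3 := SimpleGraph.dist_le (r.append (p'.drop j))
        rw [SimpleGraph.Walk.length_append, SimpleGraph.Walk.drop_length] at h3
        omega
      refine le_trans (le_of_eq (card_range _).symm) (card_le_card_of_injOn p'.getVert ?_ ?_)
      · intro j hj
        rw [mem_coe, mem_range] at hj
        have := hval j (by omega)
        refine mem_filter.2 ⟨?_, by omega⟩
        rcases Nat.eq_zero_or_pos j with rfl | h0
        · simpa using hc
        · have := hmem (p'.adj_getVert_succ (i := j - 1) (by omega))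
          rw [show j - 1 + 1 = j by omega] at this
          exact this.2
      · intro j hj k hk hjk
        rw [mem_coe, mem_range] at hj hk
        have h1 := (hval j (by omega)).1
        have h2 := (hval k (by omega)).1
        rw [hjk] at h1
        omega
    omega
  refine ⟨v, fun u => ?_⟩
  have hn := hα I hind
  rcases hnear u with hu | ⟨x, hx, hxu⟩
  · obtain ⟨p, hp⟩ := (hre hv hu).exists_walk_length_eq_dist
    have := hdist p
    have := hecc u hu
    omega
  · obtain ⟨p, hp⟩ := (hre hv hx).exists_walk_length_eq_dist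
    have := hdist p
    have := hecc x hx
    have := hconn.dist_triangle (u := v) (v := x) (w := u)
    have := SimpleGraph.dist_le (SimpleGraph.Walk.cons hxu .nil)
    simp only [SimpleGraph.Walk.length_cons, SimpleGraph.Walk.length_nil] at this
    omega

/-- If every layer is `q`-colourable, `2q` independent sets cover the graph. -/
theorem exists_layer_not_colOn [Fintype V] {n q : ℕ}
    (hα : ∀ I : Finset V, (∀ x ∈ I, ∀ y ∈ I, ¬ G.Adj x y) → #I < n)
    (hN : 2 * q * (n - 1) < Fintype.card V) (v : V) :
    ∃ i, ¬ ColOn G (univ.filter fun u => G.dist v u = i) q := by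
  classical
  by_contra hcon
  push Not at hcon
  choose c hc hproper using hcon
  let key : V → ℕ × ℕ := fun u => (G.dist v u % 2, c (G.dist v u) u)
  have hcov : (univ : Finset V).card ≤ (n - 1) * #(range 2 ×ˢ range q) := by
    refine card_le_mul_card_image_of_maps_to (f := key) (fun u _ => ?_) (n - 1) fun k _ => ?_
    · simp only [key, mem_product, mem_range]
      exact ⟨Nat.mod_lt _ (by omega), hc _ u (by simp)⟩
    · refine Nat.le_sub_one_of_lt (hα _ fun x hx y hy hxy => ?_)
      simp only [mem_filter, mem_univ, true_and, key] at hx hy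
      have h := hxy.diff_dist_adj (u := v)
      have hp : G.dist v x % 2 = G.dist v y % 2 := by
        have h1 := congrArg Prod.fst (hx.trans hy.symm); simpa using h1
      have hl : G.dist v x = G.dist v y := by omega
      have h2 := congrArg Prod.snd (hx.trans hy.symm)
      simp only [← hl] at h2
      exact hproper _ x (by simp) y (by simp [hl]) hxy h2
  rw [card_univ, card_product, card_range, card_range] at hcov
  rw [mul_comm (n - 1)] at hcov
  omega

/-- A subset that is not `q`-colourable contains a critical one. -/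
theorem exists_critical [DecidableEq V] [DecidableRel G.Adj] {L : Finset V} {q : ℕ} (hq : 2 ≤ q)
    (hL : ¬ ColOn G L q) :
    ∃ B ⊆ L, q + 1 ≤ #B ∧ (∀ x ∈ B, q ≤ #(B.filter (G.Adj x))) ∧
      (∀ x ∈ B, ∀ y ∈ B, Relation.ReflTransGen (StepIn G B ∅) x y) ∧
      (∀ t ∈ B, ∀ x ∈ B, ∀ y ∈ B, x ≠ t → y ≠ t →
        Relation.ReflTransGen (StepIn G B {t}) x y) ∧
      ¬ ∃ c : V → Bool, ∀ x ∈ B, ∀ y ∈ B, G.Adj x y → c x ≠ c y := by
  classical
  obtain ⟨B, hB, hmin⟩ := (L.powerset.filter fun B => ¬ ColOn G B q).exists_min_image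
    (fun B => #B) ⟨L, by simp [hL]⟩
  rw [mem_filter, mem_powerset] at hB
  obtain ⟨hBL, hBc⟩ := hB
  have hsub : ∀ C, C ⊆ B → #C < #B → ColOn G C q := fun C hC hlt => by
    by_contra h
    have := hmin C (mem_filter.2 ⟨mem_powerset.2 (hC.trans hBL), h⟩)
    omega
  have hdeg : ∀ x ∈ B, q ≤ #(B.filter (G.Adj x)) := by
    intro x hx
    by_contra hlt
    obtain ⟨c, hc, hcp⟩ := hsub _ (erase_subset x B) (card_erase_lt_of_mem hx)
    obtain ⟨k, hk⟩ : (range q \ (B.filter (G.Adj x)).image c).Nonempty := by
      rw [← card_pos]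
      have := le_card_sdiff ((B.filter (G.Adj x)).image c) (range q)
      have := card_image_le (f := c) (s := B.filter (G.Adj x))
      rw [card_range] at *
      omega
    simp only [mem_sdiff, mem_range, mem_image, mem_filter, not_exists, not_and] at hk
    refine hBc ⟨fun y => if y = x then k else c y, fun y hy => ?_, fun y hy z hz hyz => ?_⟩
    · by_cases h : y = x
      · simp [h, hk.1]
      · simpa [h] using hc y (by simp [h, hy])
    · by_cases h : y = x
      · subst h
        simp only [if_true, if_neg hyz.ne']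
        exact fun e => hk.2 z ⟨hz, hyz⟩ e.symm
      · by_cases h' : z = x
        · subst h'
          simp only [if_true, if_neg h]
          exact hk.2 y ⟨hy, hyz.symm⟩
        · simpa [h, h'] using hcp y (by simp [h, hy]) z (by simp [h', hz]) hyz
  refine ⟨B, hBL, ?_, hdeg, ?_, ?_, ?_⟩
  · obtain ⟨x, hx⟩ : B.Nonempty := by
      rw [nonempty_iff_ne_empty]
      rintro rfl
      exact hBc ⟨fun _ => 0, by simp, by simp⟩
    have h1 := hdeg x hx
    have h2 : #(B.filter (G.Adj x)) ≤ #(B.erase x) := card_le_card fun y hy => by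
      rw [mem_filter] at hy
      exact mem_erase.2 ⟨hy.2.ne', hy.1⟩
    rw [card_erase_of_mem hx] at h2
    have := card_pos.2 ⟨x, hx⟩
    omega
  · intro x hx y hy
    by_contra hxy
    set R := B.filter fun z => Relation.ReflTransGen (StepIn G B ∅) x z with hR
    obtain ⟨c, hc, hcp⟩ := hsub R (filter_subset _ _)
      (card_lt_card (filter_ssubset.2 ⟨y, hy, hxy⟩))
    obtain ⟨e, he, hep⟩ := hsub (B \ R) sdiff_subset (card_lt_card (ssubset_iff_of_subset
      sdiff_subset |>.2 ⟨x, hx, by simp [hR, hx, Relation.ReflTransGen.refl]⟩))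
    refine hBc ⟨fun z => if z ∈ R then c z else e z, fun z hz => ?_, fun a ha b hb hab => ?_⟩
    · by_cases h : z ∈ R
      · simpa [h] using hc z h
      · simpa [h] using he z (by simp [h, hz])
    · have hiff : a ∈ R ↔ b ∈ R := by
        simp only [hR, mem_filter, ha, hb, true_and]
        exact ⟨fun h => h.tail ⟨hab, ha, hb, by simp, by simp⟩,
          fun h => h.tail ⟨hab.symm, hb, ha, by simp, by simp⟩⟩
      by_cases h : a ∈ R
      · simpa [h, hiff.1 h] using hcp a h b (hiff.1 h) hab
      · have hbR : b ∉ R := fun h' => h (hiff.2 h')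
        simpa [h, hbR] using hep a (by simp [h, ha]) b (by simp [hb, hbR]) hab
  · intro t ht x hx y hy hxt hyt
    by_contra hxy
    set R := B.filter fun z => z = t ∨ Relation.ReflTransGen (StepIn G B {t}) x z with hR
    set R' := B.filter fun z => z = t ∨ ¬ Relation.ReflTransGen (StepIn G B {t}) x z with hR'
    obtain ⟨c, hc, hcp⟩ := hsub R (filter_subset _ _)
      (card_lt_card (filter_ssubset.2 ⟨y, hy, by simp [hyt, hxy]⟩))
    obtain ⟨e, he, hep⟩ := hsub R' (filter_subset _ _)
      (card_lt_card (filter_ssubset.2 ⟨x, hx, by simp [hxt, Relation.ReflTransGen.refl]⟩))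
    have htR : t ∈ R := by simp [hR, ht]
    have htR' : t ∈ R' := by simp [hR', ht]
    refine hBc ⟨fun z => if z ∈ R then c z else Equiv.swap (e t) (c t) (e z), fun z hz => ?_,
      fun a ha b hb hab => ?_⟩
    · by_cases h : z ∈ R
      · simpa [h] using hc z h
      · have hz' : z ∈ R' := by simp_all
        simp only [h, if_false]
        have h1 := he z hz'
        have h2 := hc t htR
        have h3 := he t htR'
        rw [Equiv.swap_apply_def]
        split_ifs <;> omega
    · have hin : ∀ z ∈ B, z ∉ R → z ∈ R' := fun z hz h => by simp_all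
      have hcross : ∀ u ∈ R, ∀ w ∈ B, w ∉ R → G.Adj u w →
          c u ≠ Equiv.swap (e t) (c t) (e w) := by
        intro u hu w hw hwR huw
        simp only [hR, mem_filter, hw, true_and, not_or] at hwR hu
        rcases hu.2 with rfl | hu'
        · intro h
          have h' := congrArg (Equiv.swap (e u) (c u)) h
          simp only [Equiv.swap_apply_self, Equiv.swap_apply_right] at h'
          exact hep u htR' w (hin w hw (by simp [hR, hw, hwR])) huw h'
        · by_cases hut : u = t
          · subst hut
            intro h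
            have h' := congrArg (Equiv.swap (e u) (c u)) h
            simp only [Equiv.swap_apply_self, Equiv.swap_apply_right] at h'
            exact hep u htR' w (hin w hw (by simp [hR, hw, hwR])) huw h'
          · exact absurd (hu'.tail ⟨huw, hu.1, hw, by simpa using hut, by simpa using hwR.1⟩) hwR.2
      by_cases h : a ∈ R <;> by_cases h' : b ∈ R <;> simp only [h, h', if_true, if_false]
      · exact hcp a h b h' hab
      · exact hcross a h b hb h' hab
      · exact (hcross b h' a ha h hab.symm).symm
      · exact fun hh => hep a (hin a ha h) b (hin b hb h') hab ((Equiv.injective _) hh)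
  · rintro ⟨c, hc⟩
    refine hBc ⟨fun z => if c z then 1 else 0, fun z _ => ?_, fun a ha b hb hab => ?_⟩
    · show (if c z then 1 else 0) < q
      split_ifs <;> omega
    · have := hc a ha b hb hab
      cases h : c a <;> cases h' : c b <;> simp_all

/-- Two vertices of one level whose ancestors first meet `d` levels up are joined from above. -/
theorem exists_tree_path (v : V) (par : V → V)
    (hpar : ∀ u, G.dist v u ≠ 0 → G.Adj u (par u) ∧ G.dist v (par u) + 1 = G.dist v u)
    (d : ℕ) : ∀ (i : ℕ) (a b : V), 1 ≤ d → d ≤ i → G.dist v a = i → G.dist v b = i →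
    (∀ j < d, par^[j] a ≠ par^[j] b) → par^[d] a = par^[d] b →
    ∃ X : List V, X.length = 2 * d - 1 ∧ X.Nodup ∧ (∀ x ∈ X, G.dist v x < i) ∧
      (a :: (X ++ [b])).IsChain G.Adj ∧ (d = 1 → X = [par a]) := by
  induction d with
  | zero => intro i a b h; omega
  | succ d ih =>
    intro i a b _ hdi ha hb hne heq
    obtain ⟨ha1, ha2⟩ := hpar a (by omega)
    obtain ⟨hb1, hb2⟩ := hpar b (by omega)
    rcases Nat.eq_zero_or_pos d with rfl | hd
    · simp only [Nat.zero_add, Function.iterate_one] at heq
      refine ⟨[par a], rfl, List.nodup_singleton _, fun x hx => ?_, ?_, fun _ => rfl⟩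
      · rw [List.mem_singleton.1 hx]; omega
      · simp only [List.singleton_append, List.isChain_cons_cons, List.isChain_singleton]
        exact ⟨ha1, heq ▸ hb1.symm, trivial⟩
    · obtain ⟨X, hX1, hX2, hX3, hX4, -⟩ := ih (i - 1) (par a) (par b) hd (by omega) (by omega)
        (by omega) (fun j hj => by simpa using hne (j + 1) (by omega)) (by simpa using heq)
      refine ⟨par a :: (X ++ [par b]), by simp [hX1]; omega, ?_, fun x hx => ?_, ?_, by omega⟩
      · have hab : par a ≠ par b := by simpa using hne 1 (by omega)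
        have hxa : par a ∉ X := fun h => by have := hX3 _ h; omega
        have hxb : par b ∉ X := fun h => by have := hX3 _ h; omega
        rw [List.nodup_cons, List.nodup_append']
        refine ⟨by simp [hab, hxa], hX2, List.nodup_singleton _, fun x hx hx' => ?_⟩
        exact hxb ((List.mem_singleton.1 hx') ▸ hx)
      · simp only [List.mem_cons, List.mem_append, List.not_mem_nil, or_false] at hx
        rcases hx with rfl | hx | rfl
        · omega
        · have := hX3 x hx; omega
        · omega
      · have h1 : (par a :: (X ++ [par b]) ++ [b]).IsChain G.Adj := by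
          rw [List.isChain_append]
          refine ⟨hX4, by simp, fun x hx y hy => ?_⟩
          rw [Option.mem_def] at hx hy
          simp only [List.head?_cons, Option.some.injEq] at hy
          rw [← List.cons_append, List.getLast?_concat, Option.some.injEq] at hx
          rw [← hx, ← hy]
          exact hb1.symm
        exact List.isChain_cons_cons.2 ⟨ha1, h1⟩

/-- The layering step: a dense critical set split by the BFS tree. -/
theorem exists_layer_core [Fintype V] [DecidableEq V] [DecidableRel G.Adj] (hconn : G.Connected)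
    {n q : ℕ} (hq : 2 ≤ q)
    (hα : ∀ I : Finset V, (∀ x ∈ I, ∀ y ∈ I, ¬ G.Adj x y) → #I < n)
    (hN : 2 * q * (n - 1) < Fintype.card V) :
    ∃ (B A : Finset V) (d : ℕ) (w : V), 1 ≤ d ∧ d ≤ n ∧ q + 1 ≤ #B ∧
      (∀ x ∈ B, q ≤ #(B.filter (G.Adj x))) ∧
      (∀ x ∈ B, ∀ y ∈ B, Relation.ReflTransGen (StepIn G B ∅) x y) ∧
      (∀ t ∈ B, ∀ x ∈ B, ∀ y ∈ B, x ≠ t → y ≠ t →
        Relation.ReflTransGen (StepIn G B {t}) x y) ∧
      (¬ ∃ c : V → Bool, ∀ x ∈ B, ∀ y ∈ B, G.Adj x y → c x ≠ c y) ∧
      A ⊆ B ∧ A.Nonempty ∧ (B \ A).Nonempty ∧ w ∉ B ∧ (d = 1 → ∀ x ∈ B, G.Adj w x) ∧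
      ∀ a ∈ A, ∀ b ∈ B \ A, ∃ X : List V, X.length = 2 * d - 1 ∧ X.Nodup ∧
        (∀ x ∈ X, x ∉ B) ∧ (a :: (X ++ [b])).IsChain G.Adj ∧ (d = 1 → X = [w]) := by
  classical
  obtain ⟨v, hv⟩ := exists_centre hconn hα
  obtain ⟨i, hi⟩ := exists_layer_not_colOn hα hN v
  obtain ⟨B, hBL, hBq, hBdeg, hBconn, hBcut, hBbip⟩ := exists_critical hq hi
  have hlev : ∀ x ∈ B, G.dist v x = i := fun x hx => (mem_filter.1 (hBL hx)).2
  have hex : ∀ u, ∃ p, G.dist v u ≠ 0 → G.Adj u p ∧ G.dist v p + 1 = G.dist v u := by
    intro u
    obtain ⟨p, hp⟩ := hconn.exists_walk_length_eq_dist u v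
    rcases p with _ | ⟨h, p'⟩
    · exact ⟨v, fun h => absurd (SimpleGraph.dist_self) h⟩
    rename_i c
    refine ⟨c, fun _ => ⟨h, ?_⟩⟩
    have h1 := SimpleGraph.dist_le p'
    have h2 := hconn.dist_triangle (u := v) (v := c) (w := u)
    have h3 := SimpleGraph.dist_le h.symm.toWalk
    simp only [SimpleGraph.Adj.toWalk, SimpleGraph.Walk.length_cons,
      SimpleGraph.Walk.length_nil] at hp h3
    rw [SimpleGraph.dist_comm (u := c) (v := v)] at h1
    rw [SimpleGraph.dist_comm (u := u) (v := v)] at hp
    omega
  choose par hpar using hex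
  have hit : ∀ j u, j ≤ G.dist v u → G.dist v (par^[j] u) + j = G.dist v u := by
    intro j
    induction j with
    | zero => simp
    | succ j ih =>
      intro u hu
      have h := ih u (by omega)
      rw [Function.iterate_succ_apply']
      have := (hpar (par^[j] u) (by omega)).2
      omega
  have hroot : ∀ x ∈ B, par^[i] x = v := fun x hx => by
    have h := hit i x (hlev x hx).ge
    rw [hlev x hx] at h
    exact ((hconn.dist_eq_zero_iff).1 (show G.dist v (par^[i] x) = 0 by omega)).symm
  have hP : ∃ j, ∀ x ∈ B, ∀ y ∈ B, par^[j] x = par^[j] y :=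
    ⟨i, fun x hx y hy => (hroot x hx).trans (hroot y hy).symm⟩
  set d := Nat.find hP with hd
  have hspec := Nat.find_spec hP
  have hdi : d ≤ i := Nat.find_le fun x hx y hy => (hroot x hx).trans (hroot y hy).symm
  have hd1 : 1 ≤ d := by
    by_contra h
    obtain ⟨x, hx, y, hy, hxy⟩ := one_lt_card.1 (show 1 < #B by omega)
    have := hspec x hx y hy
    rw [← hd, show d = 0 by omega] at this
    exact hxy this
  obtain ⟨a₀, ha₀, b₀, hb₀, hne⟩ : ∃ a ∈ B, ∃ b ∈ B, par^[d - 1] a ≠ par^[d - 1] b := by
    have := Nat.find_min hP (show d - 1 < d by omega)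
    push Not at this
    exact this
  have hin : i ≤ n := hlev a₀ ha₀ ▸ hv a₀
  set w := par^[d] a₀ with hw
  have hwlev : G.dist v w + d = i := by rw [hw, hit d a₀ (by rw [hlev a₀ ha₀]; exact hdi), hlev a₀ ha₀]
  refine ⟨B, B.filter fun x => par^[d - 1] x = par^[d - 1] a₀, d, w, hd1, hdi.trans hin, hBq,
    hBdeg, hBconn, hBcut, hBbip, filter_subset _ _, ⟨a₀, by simp [ha₀]⟩,
    ⟨b₀, by simp [hb₀, Ne.symm hne]⟩, fun h => by have := hlev w h; omega,
    fun h x hx => ?_, fun a ha b hb => ?_⟩
  · have h1 := hspec x hx a₀ ha₀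
    rw [← hd, ← hw, h, Function.iterate_one] at h1
    exact h1 ▸ (hpar x (by rw [hlev x hx]; omega)).1.symm
  · simp only [mem_filter, mem_sdiff, not_and] at ha hb
    have hdiff : ∀ j < d, par^[j] a ≠ par^[j] b := by
      intro j hj h
      have h' := congrArg (par^[d - 1 - j]) h
      rw [← Function.iterate_add_apply, ← Function.iterate_add_apply,
        show d - 1 - j + j = d - 1 by omega] at h'
      exact hb.2 hb.1 (h'.symm.trans ha.2)
    obtain ⟨X, h1, h2, h3, h4, h5⟩ := exists_tree_path v par hpar d i a b hd1 hdi (hlev a ha.1)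
      (hlev b hb.1) hdiff (hspec a ha.1 b hb.1)
    refine ⟨X, h1, h2, fun x hx hxB => ?_, h4, fun h => ?_⟩
    · have := h3 x hx
      have := hlev x hxB
      omega
    · rw [h5 h]
      have := hspec a ha.1 a₀ ha₀
      rw [← hd, ← hw, h, Function.iterate_one] at this
      rw [this]

end Vale.Agent.P048
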