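import Mathlib

/-!
Classical lemmas for P048 in list form: a path cover by at most `α` paths, and Pósa's theorem on
spanning cycles through prescribed pairs.
-/

namespace Vale.Agent.P048

open Finset

variable {V : Type*} [DecidableEq V] (G : SimpleGraph V) [DecidableRel G.Adj]

/-- `l` is a path of `G`. -/
def IsListPath (l : List V) : Prop := l ≠ [] ∧ l.Nodup ∧ l.IsChain G.Adj

omit [DecidableRel G.Adj] in
/-- A graph whose independent sets in `W` have at most `k` vertices has `W` covered by at most
`k` disjoint paths. -/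
theorem exists_path_cover (W : Finset V) (k : ℕ)
    (hk : ∀ I ⊆ W, (∀ x ∈ I, ∀ y ∈ I, ¬ G.Adj x y) → #I ≤ k) :
    ∃ P : List (List V), P.length ≤ k ∧ (∀ p ∈ P, IsListPath G p) ∧ P.flatten.Nodup ∧
      P.flatten.toFinset = W := by
  classical
  induction W using Finset.strongInduction generalizing k with
  | _ W ih =>
  rcases W.eq_empty_or_nonempty with rfl | ⟨w, hw⟩
  · exact ⟨[], by simp, by simp, by simp, by simp⟩
  let good : ℕ → Prop := fun n => ∃ l : List V, l.length = n ∧ IsListPath G l ∧ l.toFinset ⊆ W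
  have hex : good 1 := ⟨[w], rfl, ⟨by simp, by simp, by simp⟩, by simpa using hw⟩
  have hbd : ∀ n, good n → n ≤ #W := by
    rintro n ⟨l, rfl, ⟨-, hnd, -⟩, hsub⟩
    rw [← List.toFinset_card_of_nodup hnd]; exact card_le_card hsub
  have hne : 1 ≤ #W := hbd 1 hex
  obtain ⟨l, hl, ⟨hlne, hnd, hch⟩, hsub⟩ : good (Nat.findGreatest good #W) :=
    Nat.findGreatest_spec hne hex
  obtain ⟨x, t, rfl⟩ := List.exists_cons_of_ne_nil hlne
  have hxW : x ∈ W := hsub (by simp)
  have hmax : ∀ y ∈ W \ (x :: t).toFinset, ¬ G.Adj y x := by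
    intro y hy hadj
    rw [mem_sdiff, List.mem_toFinset] at hy
    have hg : good ((x :: t).length + 1) := by
      refine ⟨y :: x :: t, rfl, ⟨by simp, List.nodup_cons.2 ⟨hy.2, hnd⟩, ?_⟩, ?_⟩
      · exact List.isChain_cons_cons.2 ⟨hadj, hch⟩
      · rw [List.toFinset_cons]; exact insert_subset hy.1 hsub
    have := Nat.le_findGreatest (hbd _ hg) hg
    omega
  set R := W \ (x :: t).toFinset with hR
  have hxR : x ∉ R := by simp [hR]
  have hk1 : 1 ≤ k := by
    simpa using hk {x} (by simpa using hxW) (by simp)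
  obtain ⟨P, hPl, hP, hPnd, hPW⟩ :=
    ih R (Finset.ssubset_iff_subset_ne.2 ⟨sdiff_subset, fun h => hxR (h ▸ hxW)⟩) (k - 1) (by
      intro I hI hind
      have h1 : x ∉ I := fun h => hxR (hI h)
      have h2 := hk (insert x I) (insert_subset hxW (hI.trans sdiff_subset)) (by
        intro a ha b hb
        rcases mem_insert.1 ha with ha | ha <;> rcases mem_insert.1 hb with hb | hb
        · rw [ha, hb]; exact G.irrefl
        · rw [ha]; exact fun h => hmax b (hI hb) h.symm
        · rw [hb]; exact hmax a (hI ha)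
        · exact hind a ha b hb)
      rw [card_insert_of_notMem h1] at h2
      omega)
  refine ⟨(x :: t) :: P, ?_, ?_, ?_, ?_⟩
  · simp only [List.length_cons]; omega
  · intro p hp
    rcases List.mem_cons.1 hp with rfl | hp
    · exact ⟨by simp, hnd, hch⟩
    · exact hP p hp
  · rw [List.flatten_cons, List.nodup_append']
    refine ⟨hnd, hPnd, fun a ha ha' => ?_⟩
    have : a ∈ R := by rw [← hPW]; simpa using ha'
    exact (mem_sdiff.1 this).2 (List.mem_toFinset.2 ha)
  · rw [List.flatten_cons, List.toFinset_append, hPW, hR, union_sdiff_of_subset hsub]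

/-- The consecutive pairs of a list. -/
def epairs : List V → List (Sym2 V)
  | a :: b :: t => s(a, b) :: epairs (b :: t)
  | _ => []

/-- The cyclically consecutive pairs of a list. -/
def cpairs (l : List V) : List (Sym2 V) :=
  match l with
  | [] => []
  | a :: t => epairs (a :: t ++ [a])

theorem epairs_append : ∀ (A B : List V) (hA : A ≠ []) (hB : B ≠ []),
    epairs (A ++ B) = epairs A ++ s(A.getLast hA, B.head hB) :: epairs B
  | [a], b :: t, _, _ => by simp [epairs]
  | a :: a' :: t, B, _, hB => by
    have ih := epairs_append (a' :: t) B (by simp) hB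
    simp only [List.cons_append] at ih ⊢
    rw [epairs, ih, epairs]
    simp

theorem cpairs_eq (l : List V) (h : l ≠ []) :
    cpairs l = epairs l ++ [s(l.getLast h, l.head h)] := by
  obtain ⟨a, t, rfl⟩ := List.exists_cons_of_ne_nil h
  rw [cpairs, epairs_append _ _ (by simp) (by simp)]
  simp [epairs]

theorem cpairs_append (A B : List V) (hA : A ≠ []) (hB : B ≠ []) :
    cpairs (A ++ B) = epairs A ++ s(A.getLast hA, B.head hB) :: epairs B ++
      [s(B.getLast hB, A.head hA)] := by
  rw [cpairs_eq _ (by simp [hA]), epairs_append A B hA hB]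
  congr 3
  · exact List.getLast_append_of_ne_nil _ hB
  · exact List.head_append_of_ne_nil hA

theorem epairs_reverse : ∀ l : List V, epairs l.reverse = (epairs l).reverse
  | [] => rfl
  | [_] => rfl
  | a :: b :: t => by
    rw [List.reverse_cons, epairs_append _ _ (by simp) (by simp), epairs_reverse (b :: t)]
    simp [epairs, List.getLast_reverse, Sym2.eq_swap]

theorem mem_epairs_iff {l : List V} {p : Sym2 V} :
    p ∈ epairs l ↔ ∃ (i : ℕ) (h : i + 1 < l.length), p = s(l[i], l[i + 1]) := by
  induction l with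
  | nil => simp [epairs]
  | cons a t ih =>
    cases t with
    | nil => simp [epairs]
    | cons b t =>
      rw [epairs, List.mem_cons, ih]
      constructor
      · rintro (rfl | ⟨i, h, rfl⟩)
        · exact ⟨0, by simp, rfl⟩
        · exact ⟨i + 1, by simp at h ⊢; omega, rfl⟩
      · rintro ⟨i, h, rfl⟩
        rcases i with - | i
        · exact Or.inl rfl
        · exact Or.inr ⟨i, by simp at h ⊢; omega, rfl⟩

/-- A pair is fine if it is prescribed or an edge. -/
def fine (P : Finset (Sym2 V)) (p : Sym2 V) : Bool := decide (p ∈ P ∨ p ∈ G.edgeSet)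

/-- The number of pairs that are not fine. -/
def badCount (P : Finset (Sym2 V)) (L : List (Sym2 V)) : ℕ := L.countP fun p => !fine G P p

theorem badCount_append (P : Finset (Sym2 V)) (L M : List (Sym2 V)) :
    badCount G P (L ++ M) = badCount G P L + badCount G P M := List.countP_append

/-- One rotation step removes a bad pair. -/
theorem exists_better (D : Finset V) (P : Finset (Sym2 V)) (l : List V) (hne : l ≠ [])
    (hnd : l.Nodup) (hD : l.toFinset = D)
    (hdeg : ∀ x ∈ D, #D + #P ≤ 2 * #(D.filter (G.Adj x)))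
    (hP : ∀ p ∈ P, p ∈ cpairs l) (hbad : fine G P s(l.getLast hne, l.head hne) = false) :
    ∃ l' : List V, List.Perm l' l ∧ (∀ p ∈ P, p ∈ cpairs l') ∧
      badCount G P (cpairs l') < badCount G P (cpairs l) := by
  classical
  set k := l.length with hk
  have hcard : #D = k := by rw [← hD, List.toFinset_card_of_nodup hnd]
  have hk0 : 0 < k := List.length_pos_iff.2 hne
  have hmem : ∀ i, (h : i < k) → l[i] ∈ D := fun i h => by
    rw [← hD, List.mem_toFinset]; exact List.getElem_mem h
  have hinj : ∀ i j, (hi : i < k) → (hj : j < k) → l[i] = l[j] → i = j := fun i j hi hj h =>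
    (List.Nodup.getElem_inj_iff hnd).1 h
  let g : ℕ → V := fun i => l.getD i (l.head hne)
  have hg : ∀ i, (h : i < k) → g i = l[i] := fun i h => List.getD_eq_getElem _ _ h
  have hu : l.head hne = g 0 := by rw [hg 0 hk0, List.head_eq_getElem]
  have hv : l.getLast hne = g (k - 1) := by rw [hg _ (by omega), List.getLast_eq_getElem]
  rw [hu, hv] at hbad
  simp only [fine, decide_eq_false_iff_not, not_or, SimpleGraph.mem_edgeSet] at hbad
  have hsurj : ∀ x ∈ D, ∃ i < k, g i = x := by
    intro x hx
    rw [← hD, List.mem_toFinset] at hx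
    obtain ⟨i, hi, rfl⟩ := List.getElem_of_mem hx
    exact ⟨i, hi, hg i hi⟩
  have hginj : ∀ i j, i < k → j < k → g i = g j → i = j := fun i j hi hj h => by
    rw [hg i hi, hg j hj] at h; exact hinj i j hi hj h
  set S := (range (k - 1)).filter fun i => G.Adj (g 0) (g (i + 1)) with hS
  set T := (range (k - 1)).filter fun i => G.Adj (g (k - 1)) (g i) with hT
  have hScard : #(D.filter (G.Adj (g 0))) ≤ #S := by
    refine card_le_card_of_surjOn (fun i => g (i + 1)) ?_
    intro x hx
    rw [mem_coe, mem_filter] at hx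
    obtain ⟨i, hi, rfl⟩ := hsurj x hx.1
    have : i ≠ 0 := fun h => by rw [h] at hx; exact G.irrefl hx.2
    refine ⟨i - 1, ?_, ?_⟩
    · rw [mem_coe, hS, mem_filter, mem_range, show i - 1 + 1 = i by omega]
      exact ⟨by omega, hx.2⟩
    · simp only [show i - 1 + 1 = i by omega]
  have hTcard : #(D.filter (G.Adj (g (k - 1)))) ≤ #T := by
    refine card_le_card_of_surjOn g ?_
    intro x hx
    rw [mem_coe, mem_filter] at hx
    obtain ⟨i, hi, rfl⟩ := hsurj x hx.1
    have : i ≠ k - 1 := fun h => by rw [h] at hx; exact G.irrefl hx.2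
    exact ⟨i, by rw [mem_coe, hT, mem_filter, mem_range]; exact ⟨by omega, hx.2⟩, rfl⟩
  have hU : #(S ∪ T) ≤ k - 1 := by
    refine (card_le_card (union_subset (filter_subset _ _) (filter_subset _ _))).trans ?_
    rw [card_range]
  have hd0 := hdeg (g 0) (by rw [hg 0 hk0]; exact hmem _ _)
  have hd1 := hdeg (g (k - 1)) (by rw [hg _ (by omega)]; exact hmem _ _)
  have hint : #P < #(S ∩ T) := by
    have := card_union_add_card_inter S T
    omega
  obtain ⟨i, hiST, hiP⟩ : ∃ i ∈ S ∩ T, s(g i, g (i + 1)) ∉ P := by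
    by_contra hcon
    push Not at hcon
    have := card_le_card_of_injOn (fun i => s(g i, g (i + 1))) hcon (fun i hi j hj h => by
      simp only [mem_coe, mem_inter, hS, mem_filter, mem_range] at hi hj
      rcases Sym2.eq_iff.1 h with ⟨h1, -⟩ | ⟨h1, h2⟩
      · exact hginj i j (by omega) (by omega) h1
      · have e1 := hginj i (j + 1) (by omega) (by omega) h1
        have e2 := hginj (i + 1) j (by omega) (by omega) h2
        omega)
    omega
  rw [mem_inter, hS, hT, mem_filter, mem_filter, mem_range] at hiST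
  obtain ⟨⟨hik, hSi⟩, -, hTi⟩ := hiST
  set A := l.take (i + 1) with hA
  set B := l.drop (i + 1) with hB
  have hAB : A ++ B = l := List.take_append_drop _ _
  have hAne : A ≠ [] := by simp [hA, hne]
  have hBne : B ≠ [] := by simp [hB]; omega
  have hAh : A.head hAne = g 0 := by
    rw [hg 0 hk0, List.head_eq_getElem]; simp [hA]
  have hAl : A.getLast hAne = g i := by
    rw [hg i (by omega), List.getLast_eq_getElem]; simp [hA]; congr 1; omega
  have hBh : B.head hBne = g (i + 1) := by
    rw [hg _ (by omega), List.head_eq_getElem]; simp [hB]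
  have hBl : B.getLast hBne = g (k - 1) := by
    rw [hg _ (by omega), List.getLast_eq_getElem]; simp [hB]; congr 1; omega
  have hold : cpairs l = epairs A ++ s(g i, g (i + 1)) :: epairs B ++ [s(g (k - 1), g 0)] := by
    conv_lhs => rw [← hAB]
    rw [cpairs_append A B hAne hBne, hAh, hAl, hBh, hBl]
  have hnew : cpairs (A ++ B.reverse) =
      epairs A ++ s(g i, g (k - 1)) :: (epairs B).reverse ++ [s(g (i + 1), g 0)] := by
    rw [cpairs_append A B.reverse hAne (by simp [hBne]), hAh, hAl, epairs_reverse,
      List.head_reverse, List.getLast_reverse, hBh, hBl]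
  refine ⟨A ++ B.reverse, ?_, fun p hp => ?_, ?_⟩
  · conv_rhs => rw [← hAB]
    exact List.Perm.append_left A (List.reverse_perm B)
  · have h := hP p hp
    rw [hold] at h
    rw [hnew]
    simp only [List.mem_append, List.mem_cons, List.mem_reverse, List.mem_singleton,
      List.not_mem_nil, or_false] at h ⊢
    rcases h with (h | rfl | h) | rfl
    · exact Or.inl (Or.inl h)
    · exact absurd hp hiP
    · exact Or.inl (Or.inr (Or.inr h))
    · exact absurd hp hbad.1
  · have f1 : fine G P s(g i, g (k - 1)) = true := by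
      simp [fine, SimpleGraph.mem_edgeSet, hTi.symm]
    have f2 : fine G P s(g (i + 1), g 0) = true := by
      simp [fine, SimpleGraph.mem_edgeSet, hSi.symm]
    have f3 : fine G P s(g (k - 1), g 0) = false := by
      simp [fine, SimpleGraph.mem_edgeSet, hbad.1, hbad.2]
    rw [hold, hnew]
    simp only [badCount, List.countP_append, List.countP_cons, List.countP_nil, List.countP_reverse,
      f1, f2, f3, Bool.not_true, Bool.not_false, Bool.false_eq_true, if_false, if_true]
    omega

/-- Pósa: prescribed pairs that some cyclic order of `D` contains lie on a spanning cycle of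
`G[D]` plus these pairs, if all degrees in `D` are at least `(|D| + |P|)/2`. -/
theorem exists_cycle_order (D : Finset V) (P : Finset (Sym2 V)) (l₀ : List V)
    (hnd : l₀.Nodup) (hD : l₀.toFinset = D)
    (hdeg : ∀ x ∈ D, #D + #P ≤ 2 * #(D.filter (G.Adj x)))
    (hP : ∀ p ∈ P, p ∈ cpairs l₀) :
    ∃ l : List V, l.Nodup ∧ l.toFinset = D ∧ (∀ p ∈ P, p ∈ cpairs l) ∧
      ∀ p ∈ cpairs l, p ∈ P ∨ p ∈ G.edgeSet := by
  suffices h : ∀ (n : ℕ) (l : List V), l.Nodup → l.toFinset = D → (∀ p ∈ P, p ∈ cpairs l) →
      badCount G P (cpairs l) = n →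
      ∃ l : List V, l.Nodup ∧ l.toFinset = D ∧ (∀ p ∈ P, p ∈ cpairs l) ∧
        ∀ p ∈ cpairs l, p ∈ P ∨ p ∈ G.edgeSet from h _ l₀ hnd hD hP rfl
  intro n
  induction n using Nat.strong_induction_on with
  | _ n ih =>
  intro l hnd hD hP hn
  by_cases hall : ∀ p ∈ cpairs l, fine G P p = true
  · exact ⟨l, hnd, hD, hP, fun p hp => by simpa [fine] using hall p hp⟩
  push Not at hall
  obtain ⟨p, hp, hpb⟩ := hall
  replace hpb : fine G P p = false := by simpa using hpb
  have hne : l ≠ [] := by rintro rfl; simp [cpairs] at hp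
  -- rotate so that the bad pair closes the cycle
  obtain ⟨l₁, hperm, hcp, hne₁, hclose⟩ : ∃ l₁ : List V, List.Perm l₁ l ∧
      List.Perm (cpairs l₁) (cpairs l) ∧ ∃ h : l₁ ≠ [], s(l₁.getLast h, l₁.head h) = p := by
    rw [cpairs_eq l hne, List.mem_append, List.mem_singleton] at hp
    rcases hp with hp | hp
    · obtain ⟨i, hi, rfl⟩ := mem_epairs_iff.1 hp
      have hA : l.take (i + 1) ≠ [] := by simp [hne]
      have hB : l.drop (i + 1) ≠ [] := by simp; omega
      refine ⟨l.drop (i + 1) ++ l.take (i + 1), ?_, ?_, by simp [hne], ?_⟩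
      · exact List.perm_append_comm.trans (List.take_append_drop _ _ ▸ List.Perm.refl _)
      · conv_rhs => rw [← List.take_append_drop (i + 1) l]
        rw [cpairs_append _ _ hB hA, cpairs_append _ _ hA hB]
        rw [← Multiset.coe_eq_coe]
        simp only [← Multiset.coe_add, ← Multiset.cons_coe, ← Multiset.singleton_add, Multiset.coe_nil]
        abel
      · rw [List.getLast_append_of_ne_nil _ hA, List.head_append_of_ne_nil hB,
          List.getLast_eq_getElem, List.head_eq_getElem]
        simp only [List.getElem_take, List.getElem_drop, List.length_take]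
        congr 2 <;> congr 1 <;> omega
    · exact ⟨l, List.Perm.refl _, List.Perm.refl _, hne, hp.symm⟩
  obtain ⟨l', hl', hP', hlt⟩ := exists_better G D P l₁ hne₁ (hperm.nodup_iff.2 hnd)
    (by rw [← hD]; exact List.toFinset_eq_of_perm _ _ hperm) hdeg
    (fun q hq => hcp.mem_iff.2 (hP q hq)) (by rw [hclose]; exact hpb)
  have hlt' : badCount G P (cpairs l') < n := by
    rw [← hn]
    simp only [badCount] at hlt ⊢
    rwa [← hcp.countP_eq]
  exact ih _ hlt' l' ((hl'.trans hperm).nodup_iff.2 hnd)
    (by rw [← hD]; exact List.toFinset_eq_of_perm _ _ (hl'.trans hperm)) hP' rfl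

theorem mem_epairs_append_left {A B : List V} {p : Sym2 V} (h : p ∈ epairs A) :
    p ∈ epairs (A ++ B) := by
  obtain ⟨i, hi, rfl⟩ := mem_epairs_iff.1 h
  refine mem_epairs_iff.2 ⟨i, by simp; omega, ?_⟩
  rw [List.getElem_append_left, List.getElem_append_left]

theorem mem_epairs_append_right {A B : List V} {p : Sym2 V} (h : p ∈ epairs B) :
    p ∈ epairs (A ++ B) := by
  rcases eq_or_ne A [] with rfl | hA
  · simpa using h
  rcases eq_or_ne B [] with rfl | hB
  · simp [epairs] at h
  rw [epairs_append A B hA hB]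
  exact List.mem_append_right _ (List.mem_cons_of_mem _ h)

/-- Pósa's theorem for prescribed disjoint pairs (which need not be edges). -/
theorem exists_cycle_through_pairs (D : Finset V) (F : List (V × V))
    (hF : (F.flatMap fun e => [e.1, e.2]).Nodup)
    (hFD : ∀ e ∈ F, e.1 ∈ D ∧ e.2 ∈ D)
    (hdeg : ∀ x ∈ D, #D + F.length ≤ 2 * #(D.filter (G.Adj x))) :
    ∃ l : List V, l.Nodup ∧ l.toFinset = D ∧ (∀ e ∈ F, s(e.1, e.2) ∈ cpairs l) ∧
      ∀ p ∈ cpairs l, (∃ e ∈ F, p = s(e.1, e.2)) ∨ p ∈ G.edgeSet := by
  classical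
  set L := F.flatMap fun e => [e.1, e.2] with hL
  have hLD : L.toFinset ⊆ D := by
    intro x hx
    simp only [hL, List.mem_toFinset, List.mem_flatMap, List.mem_cons, List.not_mem_nil,
      or_false] at hx
    obtain ⟨e, he, rfl | rfl⟩ := hx
    · exact (hFD e he).1
    · exact (hFD e he).2
  have hpairs : ∀ F' : List (V × V), ∀ e ∈ F',
      s(e.1, e.2) ∈ epairs (F'.flatMap fun e => [e.1, e.2]) := by
    intro F'
    induction F' with
    | nil => simp
    | cons a t ih =>
      intro e he
      rw [List.flatMap_cons]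
      rcases List.mem_cons.1 he with rfl | he
      · exact mem_epairs_append_left (by simp [epairs])
      · exact mem_epairs_append_right (ih e he)
  set P := (F.map fun e => s(e.1, e.2)).toFinset with hP
  have hPcard : #P ≤ F.length := (List.toFinset_card_le _).trans (List.length_map _).le
  set l₀ := L ++ (D \ L.toFinset).toList with hl₀
  have hnd : l₀.Nodup := by
    rw [hl₀, List.nodup_append']
    refine ⟨hF, nodup_toList _, fun a ha ha' => ?_⟩
    exact (mem_sdiff.1 (mem_toList.1 ha')).2 (List.mem_toFinset.2 ha)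
  obtain ⟨l, h1, h2, h3, h4⟩ := exists_cycle_order G D P l₀ hnd
    (by rw [hl₀, List.toFinset_append, toList_toFinset, union_sdiff_of_subset hLD])
    (fun x hx => le_trans (by omega) (hdeg x hx)) (fun p hp => by
      obtain ⟨e, he, rfl⟩ := List.mem_map.1 (List.mem_toFinset.1 hp)
      have h := mem_epairs_append_left (B := (D \ L.toFinset).toList) (hpairs F e he)
      rw [← hl₀] at h
      have hne : l₀ ≠ [] := by intro h0; rw [h0] at h; simp [epairs] at h
      rw [cpairs_eq l₀ hne]
      exact List.mem_append_left _ h)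
  refine ⟨l, h1, h2, fun e he => h3 _ (List.mem_toFinset.2 (List.mem_map.2 ⟨e, he, rfl⟩)),
    fun p hp => ?_⟩
  rcases h4 p hp with h | h
  · obtain ⟨e, he, rfl⟩ := List.mem_map.1 (List.mem_toFinset.1 h)
    exact Or.inl ⟨e, he, rfl⟩
  · exact Or.inr h

end Vale.Agent.P048
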