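import Vale.Agent.P048.Close.Basic

/-!
The lower bound `(m - 1)(n - 1) + 1 ≤ R(C_m, K_n)` (disjoint cliques of order `m - 1`) and the
`IsLeast` form of the Ramsey identity from an upper bound.
-/

namespace Vale.Agent.P048.LowerBound

open SimpleGraph

/-- `a` disjoint cliques of order `b`. -/
def blocks (a b : ℕ) : SimpleGraph (Fin a × Fin b) where
  Adj x y := x.1 = y.1 ∧ x ≠ y
  symm := ⟨fun _ _ h => ⟨h.1.symm, h.2.symm⟩⟩
  loopless := ⟨fun _ h => h.2 rfl⟩

theorem blocks_cycle_free {a b m : ℕ} (hb : b < m) :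
    ¬ cycleGraph m ⊑ blocks a b := by
  rintro ⟨f⟩
  obtain ⟨k, rfl⟩ : ∃ k, m = k + 1 := ⟨m - 1, by omega⟩
  have hconn : (cycleGraph (k + 1)).Connected := cycleGraph_connected
  have hblock : ∀ i j, (f i).1 = (f j).1 := by
    intro i j
    obtain ⟨p⟩ := hconn.preconnected i j
    induction p with
    | nil => rfl
    | @cons u v w h p ih => exact (f.toHom.map_adj h).1.trans ih
  have hinj : Function.Injective fun i => (f i).2 := fun i j h =>
    f.injective (Prod.ext (hblock i j) h)
  have h := Fintype.card_le_of_injective _ hinj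
  simp only [Fintype.card_fin] at h
  omega

theorem blocks_indep {a b : ℕ} {s : Finset (Fin a × Fin b)}
    (hs : (blocks a b).IsIndepSet (s : Set (Fin a × Fin b))) : s.card ≤ a := by
  have h := Finset.card_le_card_of_injOn (t := (Finset.univ : Finset (Fin a))) Prod.fst
    (fun x _ => Finset.mem_coe.2 (Finset.mem_univ x.1)) (s := s) ?_
  · simpa using h
  · intro x hx y hy hxy
    by_contra hne
    exact hs hx hy hne ⟨hxy, hne⟩

/-- `N ≤ (m - 1)(n - 1)` vertices do not force a cycle on `m` vertices or an independent set of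
`n` vertices. -/
theorem exists_free {m n N : ℕ} (hm : 1 ≤ m) (hn : 1 ≤ n) (hN : N ≤ (m - 1) * (n - 1)) :
    ∃ G : SimpleGraph (Fin N), ¬ cycleGraph m ⊑ G ∧ ∀ s, ¬ G.IsNIndepSet n s := by
  let e : Fin N ↪ Fin (n - 1) × Fin (m - 1) :=
    (Fin.castLEEmb (hN.trans_eq (Nat.mul_comm _ _))).trans finProdFinEquiv.symm.toEmbedding
  refine ⟨(blocks (n - 1) (m - 1)).comap e, fun h => ?_, fun s hs => ?_⟩
  · exact blocks_cycle_free (a := n - 1) (b := m - 1) (m := m) (by omega)
      (h.trans (Embedding.comap e _).isContained)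
  · have h : (blocks (n - 1) (m - 1)).IsIndepSet (s.map e : Set (Fin (n - 1) × Fin (m - 1))) := by
      intro x hx y hy hne
      rw [Finset.coe_map] at hx hy
      obtain ⟨x, hx, rfl⟩ := hx
      obtain ⟨y, hy, rfl⟩ := hy
      exact hs.isIndepSet hx hy (fun h => hne (by rw [h]))
    have hle := blocks_indep h
    rw [Finset.card_map, hs.card_eq] at hle
    omega

/-- The identity `R(C_m, K_n) = (m - 1)(n - 1) + 1` from its upper bound. -/
theorem isLeast_ramsey {m n : ℕ} (hm : 3 ≤ m) (hn : 1 ≤ n)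
    (upper : ∀ (V : Type) [Fintype V] (G : SimpleGraph V),
      (m - 1) * (n - 1) + 1 ≤ Fintype.card V →
        Close.HasCycle G m ∨ ∃ s, G.IsNIndepSet n s) :
    IsLeast {N : ℕ | ∀ G : SimpleGraph (Fin N),
      cycleGraph m ⊑ G ∨ ∃ s, G.IsNIndepSet n s} ((m - 1) * (n - 1) + 1) := by
  refine ⟨fun G => (upper _ G (by simp)).imp_left (Close.HasCycle.isContained hm),
    fun N hN => ?_⟩
  by_contra h
  obtain ⟨G, hG, hG'⟩ := exists_free (N := N) (show 1 ≤ m by omega) hn (by omega)
  rcases hN G with h' | ⟨s, hs⟩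
  exacts [hG h', hG' s hs]

end Vale.Agent.P048.LowerBound
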